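import Vale.Agent.P296.Model.Data
import Vale.Agent.P296.Periodic
import Vale.Agent.P296.Analysis.HermitianForm

/-!
# P296: what a Griffiths positive metric of `E_q` gives upstairs

`G`, `Ginf` are the squared dual norms in the charts `t` and `s = t⁻¹`.
-/

noncomputable section
namespace Vale.Agent.P296.NoMetric
open Model Analysis
open scoped ContDiff

/-- Squared dual norms of a positive metric of `E_q`, lifted to `ℂ × ℙ¹`. -/
structure PosFamily (τ : ℂ) (q : ℕ) where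
  G : ℂ → ℂ → V → ℝ
  Ginf : ℂ → ℂ → V → ℝ
  herm : ∀ z t, IsHermSq (G z t)
  hermInf : ∀ z s, IsHermSq (Ginf z s)
  pos : ∀ z t x, x ≠ 0 → 0 < G z t x
  posInf : ∀ z s x, x ≠ 0 → 0 < Ginf z s x
  smooth : ContDiff ℝ 2 (fun p : ℂ × ℂ × V => G p.1 p.2.1 p.2.2)
  smoothInf : ContDiff ℝ 2 (fun p : ℂ × ℂ × V => Ginf p.1 p.2.1 p.2.2)
  glue : ∀ z t x, t ≠ 0 → Ginf z t⁻¹ (atInfty τ z t x) = G z t x
  per : ∀ z t x, G (z + 1) t x = G z t x
  perInf : ∀ z s x, Ginf (z + 1) s x = Ginf z s x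
  perTau : ∀ z t x, G (z + q * τ) (t + q * kap) (desc τ q z x) = G z t x
  /-- Dual of Griffiths positive: squared norms of holomorphic sections are subharmonic on lines. -/
  psh : ∀ σ : ℂ × ℂ → V, Differentiable ℂ σ → ∀ p d : ℂ × ℂ,
    SubMean fun ζ => G (p + ζ • d).1 (p + ζ • d).2 (σ (p + ζ • d))
  pshInf : ∀ σ : ℂ × ℂ → V, Differentiable ℂ σ → ∀ p d : ℂ × ℂ,
    SubMean fun ζ => Ginf (p + ζ • d).1 (p + ζ • d).2 (σ (p + ζ • d))

/-!
Target (in `NoMetric/Main.lean`):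
`theorem eventually_not_posFamily {τ : ℂ} (hτ : 0 < τ.im) :
   ∃ q₀ : ℕ, ∀ q, q₀ ≤ q → IsEmpty (PosFamily τ q)`
-/

end Vale.Agent.P296.NoMetric
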