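import Vale.Agent.P296.NoMetric.Family
import Vale.Agent.P296.Model.Lemmas
import Vale.Agent.P296.Analysis.Levi

/-!
# P296: averaging a positive family over the deck group of the isogeny

The average of the `q` translates by `(τ, κ)` of a `PosFamily τ q`, times the weight, is invariant
under `(z, t) ↦ (z + τ, t + κ)`; without the weight it is twice differentiable and psh, in both
fibre charts.
-/

noncomputable section

namespace Vale.Agent.P296.NoMetric

open Complex Filter Topology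
open Vale.Agent.P296.Model Vale.Agent.P296.Analysis
open scoped Real ContDiff

/-- Composition of a Hermitian quadratic function with a linear map. -/
lemma isHermSq_comp {W W' : Type*} [AddCommGroup W] [Module ℂ W] [AddCommGroup W'] [Module ℂ W']
    {f : W' → ℝ} (hf : IsHermSq f) (L : W →ₗ[ℂ] W') : IsHermSq fun x => f (L x) := by
  have e : ∀ u v, pol (fun x => f (L x)) u v = pol f (L u) (L v) := fun u v => by simp [pol]
  exact ⟨fun u v w => by simp [e, hf.add], fun c u v => by simp [e, hf.smul],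
    fun u v => by simp only [e]; exact hf.symm _ _, fun v => by simp only [e]; exact hf.diag _⟩

/-- Sub-mean along sections over lines gives a psh function of all variables. -/
lemma psh2_joint {f : (ℂ × ℂ) × V → ℝ} (hf : ContDiff ℝ 2 f)
    (h : ∀ σ : ℂ × ℂ → V, Differentiable ℂ σ → ∀ p d : ℂ × ℂ,
      SubMean fun ζ => f (p + ζ • d, σ (p + ζ • d))) : Psh2 f := by
  refine Psh2.of_subMean hf ?_
  have hne : ∀ (P : (ℂ × ℂ) × V) (d : ℂ × ℂ) (e : V), d ≠ 0 →
      SubMean fun ζ => f (P + ζ • (d, e)) := by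
    intro P d e hd
    obtain ⟨ℓ, hℓ⟩ : ∃ ℓ : ℂ × ℂ →L[ℂ] ℂ, ℓ d = 1 := by
      by_cases h1 : d.1 = 0
      · exact ⟨d.2⁻¹ • ContinuousLinearMap.snd ℂ ℂ ℂ, by
          simpa using inv_mul_cancel₀ (fun h2 => hd (Prod.ext h1 h2))⟩
      · exact ⟨d.1⁻¹ • ContinuousLinearMap.fst ℂ ℂ ℂ, by simpa using inv_mul_cancel₀ h1⟩
    have h1 := h (fun w => P.2 + ℓ (w - P.1) • e) (by fun_prop) P.1 d
    convert h1 using 2 with ζ
    congr 1
    refine Prod.ext rfl ?_
    simp [hℓ]
  intro P a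
  rcases ne_or_eq a.1 0 with ha | ha
  · exact hne P a.1 a.2 ha
  intro c r hr
  set line : ℝ → ℂ → (ℂ × ℂ) × V := fun ε ζ => P + ζ • (((ε : ℂ), (0 : ℂ)), a.2)
  have hl : Continuous fun w : ℝ × ℂ => f (line w.1 w.2) := hf.continuous.comp (by fun_prop)
  have hc1 : Continuous fun ε : ℝ => Real.circleAverage (fun ζ => f (line ε ζ)) c r := by
    simp only [Real.circleAverage_def, smul_eq_mul]
    exact continuous_const.mul (intervalIntegral.continuous_parametric_intervalIntegral_of_continuous'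
      (μ := MeasureTheory.volume) (f := fun ε θ => f (line ε (circleMap c r θ)))
      (hl.comp (continuous_fst.prodMk ((continuous_circleMap c r).comp continuous_snd))) _ _)
  have hc0 : Continuous fun ε : ℝ => f (line ε c) :=
    hl.comp (continuous_id.prodMk continuous_const)
  have e0 : line 0 = fun ζ => P + ζ • a := by
    funext ζ
    simp only [line]
    congr 2
    exact Prod.ext (by rw [ha]; simp) rfl
  have := le_of_tendsto_of_tendsto ((hc0.tendsto 0).mono_left nhdsWithin_le_nhds)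
    ((hc1.tendsto 0).mono_left nhdsWithin_le_nhds)
    (eventually_mem_nhdsWithin.mono fun ε (hε : ε ∈ ({(0 : ℝ)}ᶜ : Set ℝ)) =>
      hne P (((ε : ℂ), 0)) a.2 (fun h0 => hε (by simpa using congrArg Prod.fst h0)) c r hr)
  simpa only [e0] using this

variable {τ : ℂ}

/-- The linear part of the scalar which moves the weight by `j` steps. -/
def mu (τ : ℂ) (q j : ℕ) (z : ℂ) : ℂ :=
  exp (4 * π * I * j * z / q - 2 * π * (j : ℂ) ^ 2 * (τ.im : ℂ) / q)

lemma norm_mu_sq (hτ : 0 < τ.im) {q : ℕ} (hq : 0 < q) (j : ℕ) (z : ℂ) :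
    wt τ q z * ‖mu τ q j z‖ ^ 2 = wt τ q (z + j * τ) := by
  have hq' : (0 : ℝ) < q := by exact_mod_cast hq
  have hT := hτ.ne'
  rw [mu, Complex.norm_exp, wt, wt, ← Real.exp_nat_mul, ← Real.exp_add]
  congr 1
  simp [Complex.div_re, Complex.normSq_natCast, sq]
  field_simp
  ring

lemma mu_add_one (τ : ℂ) (q j : ℕ) (z : ℂ) :
    mu τ q j (z + 1) = exp (((4 * π * j / q : ℝ) : ℂ) * I) * mu τ q j z := by
  rw [mu, mu, ← Complex.exp_add]
  congr 1
  push_cast
  ring

lemma mq_add_tau (τ : ℂ) (j : ℕ) (z : ℂ) : mq τ j (z + τ) * m τ z = mq τ (j + 1) z := by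
  simp only [mq, Finset.prod_range_succ', Nat.cast_zero, zero_mul, add_zero]
  congr 1
  exact Finset.prod_congr rfl fun i _ => by push_cast; ring_nf

/-- The vector part of the translation by `j` steps. -/
def act (τ : ℂ) (q j : ℕ) (z : ℂ) : V →ₗ[ℂ] V where
  toFun x := mu τ q j z • (x.1, (mq τ j z)⁻¹ * x.2)
  map_add' x y := by rw [← smul_add]; simp [mul_add]
  map_smul' c x := by
    rw [RingHom.id_apply, smul_comm c (mu τ q j z)]; simp [mul_left_comm]

lemma act_eq (τ : ℂ) (q j : ℕ) (z : ℂ) (x : V) :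
    act τ q j z x = (mu τ q j z * eP τ j z) • desc τ j z x := by
  have := eP_ne_zero τ j z
  refine Prod.ext ?_ ?_
  · simp [act, desc, smul_smul, mul_assoc, mul_inv_cancel₀ this]
  · simp [act, desc]; field_simp

variable {q : ℕ} (F : PosFamily τ q)

/-- `G` as a function of all variables. -/
def joint (P : (ℂ × ℂ) × V) : ℝ := F.G P.1.1 P.1.2 P.2

/-- `Ginf` as a function of all variables. -/
def jointI (P : (ℂ × ℂ) × V) : ℝ := F.Ginf P.1.1 P.1.2 P.2

lemma psh2_jointG : Psh2 (joint F) :=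
  psh2_joint (F.smooth.comp ((contDiff_fst.fst).prodMk ((contDiff_fst.snd).prodMk contDiff_snd)))
    F.psh

lemma psh2_jointI : Psh2 (jointI F) :=
  psh2_joint (F.smoothInf.comp ((contDiff_fst.fst).prodMk ((contDiff_fst.snd).prodMk contDiff_snd)))
    F.pshInf

/-- Translation by `j` steps in the chart `t`. -/
def move (τ : ℂ) (q j : ℕ) (P : (ℂ × ℂ) × V) : (ℂ × ℂ) × V :=
  ((P.1.1 + j * τ, P.1.2 + j * kap), act τ q j P.1.1 P.2)

/-- The same from the chart `s` to the chart `s`, where it is holomorphic. -/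
def moveI (τ : ℂ) (q j : ℕ) (P : (ℂ × ℂ) × V) : (ℂ × ℂ) × V :=
  ((P.1.1 + j * τ, P.1.2 / (1 + j * kap * P.1.2)),
    (mu τ q j P.1.1 * eP τ j P.1.1) • descI τ j P.1.1 P.1.2 P.2)

/-- From the chart `s` to the chart `t`. -/
def toT (τ : ℂ) (P : (ℂ × ℂ) × V) : (ℂ × ℂ) × V :=
  ((P.1.1, P.1.2⁻¹), fromInfty τ P.1.1 P.1.2 P.2)

/-- One translate. -/
def term (j : ℕ) (P : (ℂ × ℂ) × V) : ℝ := joint F (move τ q j P)

/-- One translate in the chart `s`. -/
def termI (j : ℕ) (P : (ℂ × ℂ) × V) : ℝ :=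
  if P.1.2 = 0 then jointI F (moveI τ q j P) else term F j (toT τ P)

lemma termI_eq (hτ : 0 < τ.im) (j : ℕ) {P : (ℂ × ℂ) × V}
    (h1 : 1 + (j : ℂ) * kap * P.1.2 ≠ 0) : termI F j P = jointI F (moveI τ q j P) := by
  rcases eq_or_ne P.1.2 0 with hs | hs
  · simp [termI, hs]
  obtain ⟨⟨z, s⟩, x⟩ := P
  simp only at hs h1
  have ht : s⁻¹ + j * kap ≠ 0 := by
    rw [show s⁻¹ + j * kap = (1 + (j : ℂ) * kap * s) / s by field_simp]
    exact div_ne_zero h1 hs
  rw [termI, if_neg hs]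
  simp only [term, toT, joint, jointI, move, moveI]
  have e : s / (1 + j * kap * s) = (s⁻¹ + j * kap)⁻¹ := by
    rw [show s⁻¹ + j * kap = (1 + (j : ℂ) * kap * s) / s by field_simp, inv_div]
  rw [descI_eq hτ j z hs h1, e, ← atInfty_smul, ← act_eq, F.glue _ _ _ ht]

lemma analyticAt_z (P : (ℂ × ℂ) × V) : AnalyticAt ℂ (fun R : (ℂ × ℂ) × V => R.1.1) P :=
  ((ContinuousLinearMap.fst ℂ ℂ ℂ).comp (ContinuousLinearMap.fst ℂ (ℂ × ℂ) V)).analyticAt P

lemma analyticAt_t (P : (ℂ × ℂ) × V) : AnalyticAt ℂ (fun R : (ℂ × ℂ) × V => R.1.2) P :=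
  ((ContinuousLinearMap.snd ℂ ℂ ℂ).comp (ContinuousLinearMap.fst ℂ (ℂ × ℂ) V)).analyticAt P

lemma analyticAt_phi (P : (ℂ × ℂ) × V) : AnalyticAt ℂ (fun R : (ℂ × ℂ) × V => R.2.1) P :=
  ((ContinuousLinearMap.fst ℂ (Fin 6 → ℂ) ℂ).comp (ContinuousLinearMap.snd ℂ (ℂ × ℂ) V)).analyticAt P

lemma analyticAt_a (P : (ℂ × ℂ) × V) : AnalyticAt ℂ (fun R : (ℂ × ℂ) × V => R.2.2) P :=
  ((ContinuousLinearMap.snd ℂ (Fin 6 → ℂ) ℂ).comp (ContinuousLinearMap.snd ℂ (ℂ × ℂ) V)).analyticAt P

lemma analyticAt_of_z {W : Type*} [NormedAddCommGroup W] [NormedSpace ℂ W] [CompleteSpace W]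
    {g : ℂ → W} (hg : Differentiable ℂ g) (P : (ℂ × ℂ) × V) :
    AnalyticAt ℂ (fun R : (ℂ × ℂ) × V => g R.1.1) P :=
  AnalyticAt.comp (g := g) (f := fun R : (ℂ × ℂ) × V => R.1.1) (hg.analyticAt _) (analyticAt_z P)

lemma analyticAt_mu (q j : ℕ) (P : (ℂ × ℂ) × V) :
    AnalyticAt ℂ (fun R : (ℂ × ℂ) × V => mu τ q j R.1.1) P :=
  analyticAt_of_z (by unfold mu; fun_prop) P

lemma analyticAt_move (j : ℕ) (P : (ℂ × ℂ) × V) : AnalyticAt ℂ (move τ q j) P := by
  exact (((analyticAt_z P).add analyticAt_const).prod ((analyticAt_t P).add analyticAt_const)).prod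
    ((analyticAt_mu q j P).smul ((analyticAt_phi P).prod
      (((analyticAt_of_z (differentiable_mq τ j) P).inv (mq_ne_zero τ j P.1.1)).mul (analyticAt_a P))))

lemma analyticAt_moveI (hτ : 0 < τ.im) (j : ℕ) {P : (ℂ × ℂ) × V}
    (h1 : 1 + (j : ℂ) * kap * P.1.2 ≠ 0) : AnalyticAt ℂ (moveI τ q j) P := by
  have hz := analyticAt_z P
  have hm := analyticAt_of_z (differentiable_mq τ j) P
  have he := analyticAt_of_z (differentiable_eP τ j) P
  have hd : ∀ d, AnalyticAt ℂ (fun R : (ℂ × ℂ) × V => thd τ d R.1.1) P := fun d =>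
    analyticAt_of_z (differentiable_thd hτ d) P
  have hs := analyticAt_t P
  have hx := analyticAt_a P
  have c : ∀ a : ℂ, AnalyticAt ℂ (fun _ : (ℂ × ℂ) × V => a) P := fun a => analyticAt_const
  have hden : AnalyticAt ℂ (fun R : (ℂ × ℂ) × V => 1 + (j : ℂ) * kap * R.1.2) P :=
    (c _).add ((c _).mul hs)
  refine ((hz.add (c _)).prod (hs.div hden h1)).prod
    (((analyticAt_mu q j P).mul he).smul (AnalyticAt.prod ?_ ?_))
  · refine (he.inv (eP_ne_zero τ j _)).smul (((hden.pow 2).smul (analyticAt_phi P)).add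
      ((hx.div hden h1).smul ?_))
    exact (((c _).smul (hd 0)).add
      (((c _).add ((c _).mul hs)).smul (hd 1))).add
      ((((c _).add ((c _).mul hs)).add
        ((c _).mul (hs.pow 2))).smul (hd 2))
  · exact ((he.mul hm).inv (mul_ne_zero (eP_ne_zero τ j _) (mq_ne_zero τ j _))).mul
      (hx.div (hden.pow 2) (pow_ne_zero 2 h1))

lemma analyticAt_toT (hτ : 0 < τ.im) {P : (ℂ × ℂ) × V} (h : P.1.2 ≠ 0) :
    AnalyticAt ℂ (toT τ) P := by
  have hz := analyticAt_z P
  have hd : ∀ d, AnalyticAt ℂ (fun R : (ℂ × ℂ) × V => thd τ d R.1.1) P := fun d =>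
    analyticAt_of_z (differentiable_thd hτ d) P
  have hs := analyticAt_t P
  have hx := analyticAt_a P
  exact (hz.prod (hs.inv h)).prod ((((hs.pow 2).smul (analyticAt_phi P)).add ((hx.div hs h).smul
    (((hd 0).add (hs.smul (hd 1))).add ((hs.pow 2).smul (hd 2))))).prod
      (hx.neg.div (hs.pow 2) (pow_ne_zero 2 h)))

lemma psh2_term (j : ℕ) : Psh2 (term F j) :=
  Psh2.comp (Φ := move τ q j) (psh2_jointG F) (analyticAt_move j)

lemma psh2_termI (hτ : 0 < τ.im) (j : ℕ) : Psh2 (termI F j) := by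
  refine Psh2.of_local (E := (ℂ × ℂ) × V) fun P => ?_
  by_cases hs : P.1.2 = 0
  · refine ⟨jointI F, moveI τ q j, psh2_jointI F,
      analyticAt_moveI hτ j (by simp [hs]), ?_⟩
    have hc : ContinuousAt (fun R : (ℂ × ℂ) × V => 1 + (j : ℂ) * kap * R.1.2) P := by fun_prop
    filter_upwards [hc.eventually_ne (show 1 + (j : ℂ) * kap * P.1.2 ≠ 0 by simp [hs])] with R hR
    exact termI_eq F hτ j hR
  · refine ⟨term F j, toT τ, psh2_term F j, analyticAt_toT hτ hs, ?_⟩
    have hc : ContinuousAt (fun R : (ℂ × ℂ) × V => R.1.2) P := by fun_prop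
    filter_upwards [hc.eventually_ne hs] with R hR
    simp [termI, hR]

/-- The sum of the translates. -/
def avgG (P : (ℂ × ℂ) × V) : ℝ := ∑ j ∈ Finset.range q, term F j P

/-- The sum of the translates in the chart `s`. -/
def avgI (P : (ℂ × ℂ) × V) : ℝ := ∑ j ∈ Finset.range q, termI F j P

lemma psh2_avgG : Psh2 (avgG F) := Psh2.sum _ fun j _ => psh2_term F j

lemma psh2_avgI (hτ : 0 < τ.im) : Psh2 (avgI F) := Psh2.sum _ fun j _ => psh2_termI F hτ j

/-- The weighted average in the chart `t`. -/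
def avgH (P : (ℂ × ℂ) × V) : ℝ := wt τ q P.1.1 * avgG F P

/-- The weighted average in the chart `s`. -/
def avgHI (P : (ℂ × ℂ) × V) : ℝ := wt τ q P.1.1 * avgI F P

lemma continuous_avgH : Continuous (avgH F) :=
  ((contDiff_wt τ q (k := 0)).continuous.comp (continuous_fst.fst)).mul
    (psh2_avgG F).smooth.continuous

lemma continuous_avgHI (hτ : 0 < τ.im) : Continuous (avgHI F) :=
  ((contDiff_wt τ q (k := 0)).continuous.comp (continuous_fst.fst)).mul
    (psh2_avgI F hτ).smooth.continuous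

lemma joint_nonneg (P : (ℂ × ℂ) × V) : 0 ≤ joint F P := by
  rcases eq_or_ne P.2 0 with h | h
  · rw [joint, h, (F.herm _ _).apply_zero]
  · exact (F.pos _ _ _ h).le

lemma jointI_nonneg (P : (ℂ × ℂ) × V) : 0 ≤ jointI F P := by
  rcases eq_or_ne P.2 0 with h | h
  · rw [jointI, h, (F.hermInf _ _).apply_zero]
  · exact (F.posInf _ _ _ h).le

lemma termI_nonneg (j : ℕ) (P : (ℂ × ℂ) × V) : 0 ≤ termI F j P := by
  rw [termI]
  split_ifs
  · exact jointI_nonneg F _
  · exact joint_nonneg F _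

lemma avgH_nonneg (P : (ℂ × ℂ) × V) : 0 ≤ avgH F P :=
  mul_nonneg (wt_pos _ _ _).le (Finset.sum_nonneg fun _ _ => joint_nonneg F _)

lemma avgHI_nonneg (P : (ℂ × ℂ) × V) : 0 ≤ avgHI F P :=
  mul_nonneg (wt_pos _ _ _).le (Finset.sum_nonneg fun j _ => termI_nonneg F j _)

lemma isHermSq_sum {W : Type*} [AddCommGroup W] [Module ℂ W] {ι : Type*} (t : Finset ι)
    {f : ι → W → ℝ} (h : ∀ i, IsHermSq (f i)) : IsHermSq fun x => ∑ i ∈ t, f i x := by
  classical
  induction t using Finset.induction_on with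
  | empty => simpa using isHermSq_zero
  | insert i s hi ih => simpa [Finset.sum_insert hi] using (h i).add_fun ih

lemma herm_avgH (p : ℂ × ℂ) : IsHermSq fun x => avgH F (p, x) :=
  (isHermSq_sum (Finset.range q) fun j =>
    isHermSq_comp (F.herm (p.1 + j * τ) (p.2 + j * kap)) (act τ q j p.1)).const_mul (wt τ q p.1)

lemma herm_avgHI (p : ℂ × ℂ) : IsHermSq fun x => avgHI F (p, x) := by
  refine (isHermSq_sum (Finset.range q) (f := fun j (x : V) => termI F j (p, x))
    fun j => ?_).const_mul (wt τ q p.1)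
  simp only [termI]
  split_ifs
  · let L : V →ₗ[ℂ] V :=
      { toFun := fun x => (mu τ q j p.1 * eP τ j p.1) • descI τ j p.1 p.2 x
        map_add' := fun x y => by rw [descI_add, smul_add]
        map_smul' := fun c x => by rw [descI_smul, RingHom.id_apply, smul_comm] }
    exact isHermSq_comp (F.hermInf (p.1 + j * τ) (p.2 / (1 + j * kap * p.2))) L
  · let L : V →ₗ[ℂ] V :=
      { toFun := fun x => fromInfty τ p.1 p.2 x
        map_add' := fun x y => by
          refine Prod.ext ?_ ?_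
          · funext i; simp [fromInfty]; ring
          · simp [fromInfty]; ring
        map_smul' := fun c x => by
          refine Prod.ext ?_ ?_
          · funext i; simp [fromInfty]; ring
          · simp [fromInfty]; ring }
    exact isHermSq_comp (F.herm (p.1 + j * τ) (p.2⁻¹ + j * kap)) ((act τ q j p.1).comp L)

lemma avgH_pos (hq : 0 < q) (p : ℂ × ℂ) {x : V} (hx : x ≠ 0) : 0 < avgH F (p, x) := by
  refine mul_pos (wt_pos _ _ _) (lt_of_lt_of_le ?_ (Finset.single_le_sum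
    (f := fun j => term F j (p, x)) (fun j _ => joint_nonneg F _) (Finset.mem_range.2 hq)))
  refine F.pos _ _ _ fun h => hx ?_
  simpa [move, act, mu] using h

lemma glue_avg (z : ℂ) {t : ℂ} (ht : t ≠ 0) (x : V) :
    avgHI F ((z, t⁻¹), atInfty τ z t x) = avgH F ((z, t), x) := by
  simp only [avgHI, avgH, avgI, avgG]
  congr 1
  refine Finset.sum_congr rfl fun j _ => ?_
  rw [termI, if_neg (inv_ne_zero ht), toT]
  simp only [fromInfty_atInfty τ z ht, inv_inv]

lemma avgH_add_one (p : ℂ × ℂ) (x : V) : avgH F (p + (1, 0), x) = avgH F (p, x) := by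
  simp only [avgH, avgG, Prod.fst_add, wt_add_one]
  congr 1
  refine Finset.sum_congr rfl fun j _ => ?_
  simp only [term, joint, move, Prod.fst_add, Prod.snd_add, add_zero]
  rw [add_right_comm, F.per,
    show act τ q j (p.1 + 1) x = exp (((4 * π * j / q : ℝ) : ℂ) * I) • act τ q j p.1 x by
      simp [act, mu_add_one, mq_add_one, smul_smul, mul_assoc],
    (F.herm _ _).apply_smul, Complex.norm_exp_ofReal_mul_I, one_pow, one_mul]

lemma avgH_add_tau (hτ : 0 < τ.im) (hq : 0 < q) (p : ℂ × ℂ) (x : V) :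
    avgH F (p + (τ, kap), (x.1, (m τ p.1)⁻¹ * x.2)) = avgH F (p, x) := by
  set K : ℕ → ℝ := fun j => wt τ q (p.1 + j * τ) *
    F.G (p.1 + j * τ) (p.2 + j * kap) (x.1, (mq τ j p.1)⁻¹ * x.2)
  have h0 : ∀ j, wt τ q p.1 * term F j (p, x) = K j := fun j => by
    simp only [term, joint, move, act, LinearMap.coe_mk, AddHom.coe_mk, (F.herm _ _).apply_smul, K]
    rw [← mul_assoc, norm_mu_sq hτ hq]
  have h1 : ∀ j, wt τ q (p.1 + τ) *
      term F j (p + (τ, kap), (x.1, (m τ p.1)⁻¹ * x.2)) = K (j + 1) := fun j => by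
    simp only [term, joint, move, act, LinearMap.coe_mk, AddHom.coe_mk, (F.herm _ _).apply_smul, K,
      Prod.fst_add, Prod.snd_add]
    rw [← mul_assoc, norm_mu_sq hτ hq, ← mul_assoc (mq τ j (p.1 + τ))⁻¹, ← mul_inv, mq_add_tau]
    have e1 : p.1 + τ + j * τ = p.1 + ((j + 1 : ℕ) : ℂ) * τ := by push_cast; ring
    have e2 : p.2 + kap + j * kap = p.2 + ((j + 1 : ℕ) : ℂ) * kap := by push_cast; ring
    rw [e1, e2]
  have hq0 : K q = K 0 := by
    have e : ((x.1, (mq τ q p.1)⁻¹ * x.2) : V) = eP τ q p.1 • desc τ q p.1 x := by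
      refine Prod.ext ?_ ?_
      · simp [desc, smul_smul, eP_ne_zero]
      · simp [desc]; field_simp [eP_ne_zero]
    simp only [K, e, (F.herm _ _).apply_smul, F.perTau, Nat.cast_zero, zero_mul, add_zero, mq_zero,
      inv_one, one_mul]
    rw [← mul_assoc, wt_rule hτ hq]
  simp only [avgH, avgG, Finset.mul_sum, Prod.fst_add, h0, h1]
  have h3 := Finset.sum_range_succ' K q
  rw [Finset.sum_range_succ] at h3
  linarith

/-- The exponent which undoes the weight. -/
def epsQ (τ : ℂ) (q : ℕ) : ℝ := 4 * π / (q * τ.im)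

lemma avgH_mul_exp (P : (ℂ × ℂ) × V) :
    avgH F P * Real.exp (epsQ τ q * P.1.1.im ^ 2) = avgG F P := by
  rw [avgH, mul_right_comm, wt, ← Real.exp_add, epsQ]
  ring_nf
  simp

lemma subMean_avgHI (hτ : 0 < τ.im) (z : ℂ) (x : V) : SubMean fun s => avgHI F ((z, s), x) := by
  intro c r hr
  have hd : Differentiable ℂ fun s : ℂ => (((z, s), x) : (ℂ × ℂ) × V) := by fun_prop
  have h := (psh2_avgI F hτ).le_circleAverage hr (hd.diffContOnCl (s := Metric.ball c r))
  simp only [avgHI, ← smul_eq_mul]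
  rw [Real.circleAverage_fun_smul]
  exact smul_le_smul_of_nonneg_left h (wt_pos _ _ _).le

end Vale.Agent.P296.NoMetric
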