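import Vale.Agent.P296.Analysis.DualPsh
import Vale.Agent.P296.NoMetric.Family

/-!
# P296: lifting the dual norm of a metric along a map with dual frames

A dual trivialisation is a map `π : F → X` with, for every frame of `E`, linear fibre coordinates
on a fixed space `W`, transformed by the cocycle. The squared dual norm of a Hermitian metric then
is a function on `F × W`: Hermitian quadratic, positive, of class `C²`, and for a Griffiths positive
metric sub-mean on complex lines along holomorphic sections. Two trivialisations related by the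
gluing and the descent of the model give the family `PosFamily`.
-/

noncomputable section

namespace Vale.Agent.P296.NoMetric

open scoped Manifold ContDiff Topology ComplexConjugate
open Matrix Filter
open scoped ComplexOrder

variable {n r : ℕ} {X : Type} [TopologicalSpace X] [ChartedSpace (Cn n) X]

/-- The squared dual norm of a row for a Gram matrix. -/
def rowSq (M : Matrix (Fin r) (Fin r) ℂ) (η : Fin r → ℂ) : ℝ := (η ⬝ᵥ (M⁻¹ *ᵥ star η)).re

lemma rowSq_conj (M g : Matrix (Fin r) (Fin r) ℂ) (hg : IsUnit g.det) (η : Fin r → ℂ) :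
    rowSq (gᴴ * M * g) (η ᵥ* g) = rowSq M η := by
  have hgi : IsUnit gᴴ.det := by rw [Matrix.det_conjTranspose]; exact hg.star
  rw [rowSq, rowSq, Matrix.mul_inv_rev, Matrix.mul_inv_rev, Matrix.star_vecMul,
    Matrix.mulVec_mulVec, Matrix.mul_assoc, Matrix.mul_assoc, Matrix.nonsing_inv_mul _ hgi,
    Matrix.mul_one, ← Matrix.dotProduct_mulVec, Matrix.mulVec_mulVec, ← Matrix.mul_assoc,
    Matrix.mul_nonsing_inv _ hg, Matrix.one_mul]

lemma conj_dot_mulVec {A : Matrix (Fin r) (Fin r) ℂ} (hA : A.IsHermitian) (a b : Fin r → ℂ) :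
    conj (a ⬝ᵥ (A *ᵥ star b)) = b ⬝ᵥ (A *ᵥ star a) := by
  simp only [dotProduct, Matrix.mulVec, map_sum, Finset.mul_sum, map_mul, Pi.star_apply,
    Complex.star_def, Complex.conj_conj]
  rw [Finset.sum_comm]
  refine Finset.sum_congr rfl fun i _ => Finset.sum_congr rfl fun j _ => ?_
  have e : conj (A j i) = A i j := hA.apply i j
  rw [e]
  ring

lemma det_g_isUnit {E : HolBundle n r X} (h : HermMetric E) {a b : E.ι} {x : X}
    (hx : x ∈ E.core.baseSet a ∩ E.core.baseSet b) : IsUnit (E.g a b x).det := by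
  have h1 := (h.pos a x hx.1).det_pos.ne'
  rw [h.compat a b x hx, Matrix.det_mul] at h1
  exact isUnit_iff_ne_zero.2 fun h0 => h1 (by rw [h0, mul_zero])

/-- The dual norm does not depend on the frame. -/
lemma rowSq_compat {E : HolBundle n r X} (h : HermMetric E) {a b : E.ι} {x : X}
    (hx : x ∈ E.core.baseSet a ∩ E.core.baseSet b) (η : Fin r → ℂ) :
    rowSq (h.h a x) (η ᵥ* E.g a b x) = rowSq (h.h b x) η := by
  rw [h.compat a b x hx, rowSq_conj _ _ (det_g_isUnit h hx)]

/-- Fibre coordinates for the dual bundle along a map to the base. -/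
structure DualTriv (E : HolBundle n r X) (F W : Type*) [NormedAddCommGroup F] [NormedSpace ℂ F]
    [NormedAddCommGroup W] [NormedSpace ℂ W] where
  π : F → X
  π_cont : Continuous π
  π_hol : ∀ w, AnalyticAt ℂ (fun y => chartAt (Cn n) (π w) (π y)) w
  L : E.ι → F → W →ₗ[ℂ] (Fin r → ℂ)
  L_hol : ∀ a w, π w ∈ E.core.baseSet a → ∀ x i,
    AnalyticAt ℂ (fun p : F × W => L a p.1 p.2 i) (w, x)
  L_inj : ∀ a w, π w ∈ E.core.baseSet a → Function.Injective (L a w)
  L_compat : ∀ a b w, π w ∈ E.core.baseSet a ∩ E.core.baseSet b → ∀ x,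
    L a w x = (L b w x) ᵥ* E.g a b (π w)

namespace DualTriv

variable {E : HolBundle n r X} {F W : Type*} [NormedAddCommGroup F] [NormedSpace ℂ F]
  [NormedAddCommGroup W] [NormedSpace ℂ W] (D : DualTriv E F W) (h : HermMetric E)

/-- The squared dual norm upstairs. -/
def sq (w : F) (x : W) : ℝ :=
  rowSq (h.h (E.core.indexAt (D.π w)) (D.π w)) (D.L (E.core.indexAt (D.π w)) w x)

lemma sq_eq {a : E.ι} {w : F} (ha : D.π w ∈ E.core.baseSet a) (x : W) :
    D.sq h w x = rowSq (h.h a (D.π w)) (D.L a w x) := by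
  have hb := E.core.mem_baseSet_at (D.π w)
  rw [sq, D.L_compat a _ w ⟨ha, hb⟩ x, rowSq_compat h ⟨ha, hb⟩]

/-- Two trivialisations over the same point with the same coordinates give the same norm. -/
lemma sq_congr {F' W' : Type*} [NormedAddCommGroup F'] [NormedSpace ℂ F'] [NormedAddCommGroup W']
    [NormedSpace ℂ W'] (D' : DualTriv E F' W') {w : F} {w' : F'} {x : W} {x' : W'}
    (hπ : D'.π w' = D.π w)
    (hL : ∀ a, D.π w ∈ E.core.baseSet a → D'.L a w' x' = D.L a w x) :
    D'.sq h w' x' = D.sq h w x := by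
  have ha := E.core.mem_baseSet_at (D.π w)
  rw [D'.sq_eq h (hπ.symm ▸ ha), D.sq_eq h ha, hπ, hL _ ha]

lemma isHermSq (w : F) : Analysis.IsHermSq (D.sq h w) := by
  set a := E.core.indexAt (D.π w)
  have hA := (h.pos a _ (E.core.mem_baseSet_at (D.π w))).inv.isHermitian
  exact (Analysis.isHermSq_of_form
    (B := fun u v : W => D.L a w v ⬝ᵥ ((h.h a (D.π w))⁻¹ *ᵥ star (D.L a w u)))
    (fun u v v' => by simp [add_dotProduct])
    (fun c u v => by simp [smul_dotProduct])
    (fun u v => (conj_dot_mulVec hA _ _).symm)).1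

lemma sq_pos (w : F) {x : W} (hx : x ≠ 0) : 0 < D.sq h w x := by
  have hm := E.core.mem_baseSet_at (D.π w)
  have hη : D.L (E.core.indexAt (D.π w)) w x ≠ 0 := fun h0 =>
    hx (D.L_inj _ w hm (h0.trans (map_zero _).symm))
  have := (h.pos _ _ hm).inv.dotProduct_mulVec_pos (star_ne_zero.2 hη)
  rw [star_star] at this
  exact (Complex.pos_iff.1 this).1

lemma contDiffAt_gram {a : E.ι} {w : F} (ha : D.π w ∈ E.core.baseSet a) (i j : Fin r) :
    ContDiffAt ℝ 2 (fun y => h.h a (D.π y) i j) w := by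
  set c := chartAt (Cn n) (D.π w) with hc
  have h0 := (h.contDiffAt_chart a ha i j).comp w
    (((D.π_hol w).contDiffAt (n := 2)).restrict_scalars ℝ)
  have h1 : ContDiffAt ℝ 2 (fun y => h.h a (c.symm (c (D.π y))) i j) w := h0
  refine h1.congr_of_eventuallyEq ?_
  filter_upwards [D.π_cont.continuousAt (c.open_source.mem_nhds (mem_chart_source _ (D.π w)))] with y hy
  rw [c.left_inv hy]

lemma contDiff_sq : ContDiff ℝ 2 (fun p : F × W => D.sq h p.1 p.2) := by
  rw [contDiff_iff_contDiffAt]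
  rintro ⟨w, x⟩
  set a := E.core.indexAt (D.π w)
  set U : Set (F × W) := {p | D.π p.1 ∈ E.core.baseSet a} with hU'
  have hU : IsOpen U := (E.core.isOpen_baseSet a).preimage (D.π_cont.comp continuous_fst)
  have hd : ContDiffOn ℝ 2
      (dualSq (fun p : F × W => h.h a (D.π p.1)) fun p => D.L a p.1 p.2) U := by
    refine contDiffOn_dualSq (fun i j p hp => ?_) (fun p hp => h.pos a _ hp) fun i p hp => ?_
    · exact ((D.contDiffAt_gram h hp i j).comp p contDiffAt_fst).contDiffWithinAt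
    · exact (((D.L_hol a p.1 hp p.2 i).contDiffAt (n := 2)).restrict_scalars ℝ).contDiffWithinAt
  refine (hd.contDiffAt (hU.mem_nhds (E.core.mem_baseSet_at (D.π w)))).congr_of_eventuallyEq ?_
  filter_upwards [hU.mem_nhds (E.core.mem_baseSet_at (D.π w))] with p hp
  exact D.sq_eq h hp p.2

variable [CompleteSpace F] [CompleteSpace W]

theorem subMean (hpos : h.GriffithsPositive) {σ : F → W} (hσ : Differentiable ℂ σ) (p d : F) :
    SubMean fun ζ => D.sq h (p + ζ • d) (σ (p + ζ • d)) := by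
  set ℓ : ℂ → F := fun ζ => p + ζ • d with hℓ
  set P : ℂ → F × W := fun ζ => (ℓ ζ, σ (ℓ ζ)) with hP
  have hℓd : Differentiable ℂ ℓ := (differentiable_const p).add (differentiable_id.smul_const d)
  have hPd : Differentiable ℂ P := hℓd.prodMk (hσ.comp hℓd)
  have hP2 : ContDiff ℝ 2 P := (hPd.contDiff (n := 2)).restrict_scalars ℝ
  have hf0 := (D.contDiff_sq h).comp hP2
  have hf : ContDiff ℝ 2 (fun ζ => D.sq h (ℓ ζ) (σ (ℓ ζ))) := by
    simpa only [Function.comp_def, hP] using hf0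
  intro c R hR
  refine le_circleAverage_of_d2 (U := Set.univ) isOpen_univ hf.contDiffOn hR.le (Set.subset_univ _)
    fun w _ => ?_
  set a := E.core.indexAt (D.π (ℓ w))
  set V : Set ℂ := {ζ | D.π (ℓ ζ) ∈ E.core.baseSet a} with hV'
  have hV : IsOpen V := (E.core.isOpen_baseSet a).preimage (D.π_cont.comp hℓd.continuous)
  have hw : w ∈ V := E.core.mem_baseSet_at (D.π (ℓ w))
  set H : ℂ → Matrix (Fin r) (Fin r) ℂ := fun ζ => h.h a (D.π (ℓ ζ))
  set τ : ℂ → Fin r → ℂ := fun ζ => D.L a (ℓ ζ) (σ (ℓ ζ))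
  have hℓ2 : ContDiff ℝ 2 ℓ := (hℓd.contDiff (n := 2)).restrict_scalars ℝ
  have hH : ∀ i j, ContDiffOn ℝ 2 (fun ζ => H ζ i j) V := fun i j ζ hζ =>
    ((D.contDiffAt_gram h hζ i j).comp ζ hℓ2.contDiffAt).contDiffWithinAt
  have hτd : ∀ i, ∀ ζ ∈ V, DifferentiableAt ℂ (fun ζ => τ ζ i) ζ := fun i ζ hζ =>
    DifferentiableAt.comp (g := fun q : F × W => D.L a q.1 q.2 i) ζ
      (D.L_hol a (ℓ ζ) hζ (σ (ℓ ζ)) i).differentiableAt (hPd ζ)
  have hτ2 : ∀ i, ContDiffOn ℝ 2 (fun ζ => τ ζ i) V := fun i =>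
    (DifferentiableOn.contDiffOn (n := 2) (fun ζ hζ => (hτd i ζ hζ).differentiableWithinAt)
      hV).restrict_scalars ℝ
  have hcurv : ∀ v, 0 ≤ curvForm H w 1 v := by
    intro v
    rw [curvForm_eq_chern (fun i j => (hH i j).contDiffAt (hV.mem_nhds hw))]
    rcases eq_or_ne v 0 with rfl | hv
    · simp
    · have hφ : AnalyticAt ℂ (fun ζ => chartAt (Cn n) (D.π (ℓ w)) (D.π (ℓ ζ))) w :=
        (D.π_hol (ℓ w)).comp (hℓd.analyticAt w)
      have := (hpos.pullback a (φ := fun ζ => D.π (ℓ ζ)) (D.π_cont.comp hℓd.continuous).continuousAt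
        hw hφ (G := fun _ => (1 : Matrix (Fin r) (Fin r) ℂ)) (fun i j => analyticAt_const)
        (by simp) (1 : ℂ) hv).1
      simpa using this
  have key := d2_dualSq_nonneg hV hH (fun ζ hζ => h.pos a _ hζ) hτ2
    (fun i ζ hζ => (hτd i ζ hζ).differentiableWithinAt) hw 1 hcurv
  have hev : (fun ζ => D.sq h (ℓ ζ) (σ (ℓ ζ))) =ᶠ[𝓝 w] dualSq H τ :=
    eventually_of_mem (hV.mem_nhds hw) fun ζ hζ => D.sq_eq h hζ _
  simpa [d2, (hev.fderiv (𝕜 := ℝ)).fderiv_eq] using key

end DualTriv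

/-- Two trivialisations with the gluing and the descent of the model give the family upstairs. -/
def posFamilyOf {X : Type} [TopologicalSpace X] [ChartedSpace (Cn 2) X] {E : HolBundle 2 7 X}
    {h : HermMetric E} (hpos : h.GriffithsPositive) {τ : ℂ} {q : ℕ}
    (D DI : DualTriv E (ℂ × ℂ) Model.V)
    (hglue : ∀ z t, t ≠ 0 → DI.π (z, t⁻¹) = D.π (z, t) ∧ ∀ x a, D.π (z, t) ∈ E.core.baseSet a →
      DI.L a (z, t⁻¹) (Model.atInfty τ z t x) = D.L a (z, t) x)
    (hper : ∀ z t, D.π (z + 1, t) = D.π (z, t) ∧ ∀ x a, D.π (z, t) ∈ E.core.baseSet a →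
      D.L a (z + 1, t) x = D.L a (z, t) x)
    (hperI : ∀ z s, DI.π (z + 1, s) = DI.π (z, s) ∧ ∀ x a, DI.π (z, s) ∈ E.core.baseSet a →
      DI.L a (z + 1, s) x = DI.L a (z, s) x)
    (hdesc : ∀ z t, D.π (z + q * τ, t + q * Model.kap) = D.π (z, t) ∧
      ∀ x a, D.π (z, t) ∈ E.core.baseSet a →
        D.L a (z + q * τ, t + q * Model.kap) (Model.desc τ q z x) = D.L a (z, t) x) :
    PosFamily τ q where
  G z t x := D.sq h (z, t) x
  Ginf z s x := DI.sq h (z, s) x
  herm z t := D.isHermSq h (z, t)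
  hermInf z s := DI.isHermSq h (z, s)
  pos z t x hx := D.sq_pos h (z, t) hx
  posInf z s x hx := DI.sq_pos h (z, s) hx
  smooth := (D.contDiff_sq h).comp
    (f := fun p : ℂ × ℂ × Model.V => ((p.1, p.2.1), p.2.2)) (by fun_prop)
  smoothInf := (DI.contDiff_sq h).comp
    (f := fun p : ℂ × ℂ × Model.V => ((p.1, p.2.1), p.2.2)) (by fun_prop)
  glue z t x ht := D.sq_congr h DI (hglue z t ht).1 fun a ha => (hglue z t ht).2 x a ha
  per z t x := D.sq_congr h D (hper z t).1 fun a ha => (hper z t).2 x a ha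
  perInf z s x := DI.sq_congr h DI (hperI z s).1 fun a ha => (hperI z s).2 x a ha
  perTau z t x := D.sq_congr h D (hdesc z t).1 fun a ha => (hdesc z t).2 x a ha
  psh σ hσ p d := D.subMean h hpos hσ p d
  pshInf σ hσ p d := DI.subMean h hpos hσ p d

end Vale.Agent.P296.NoMetric
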