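import Vale.Agent.P296.Model.Dict
import Vale.Agent.P296.Model.Lift
import Vale.Agent.P296.NoMetric.Lift

/-!
# P296: a Griffiths positive metric of `E_q` gives a positive family upstairs

The frames `Surf.row` upstairs are dual trivialisations along the two charts of `ℂ × ℙ¹`; the
gluing of the charts and the descent are the changes of dual coordinates for the translations
`0`, `1` and `qτ`.
-/

noncomputable section

namespace Vale.Agent.P296.NoMetric

open Model

/-- The dual trivialisation along the chart of kind `κ` upstairs. -/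
def modelTriv (D : ModelData) (κ : Bool) : DualTriv (Surf.bundle D) (ℂ × ℂ) V where
  π := Surf.proj D κ
  π_cont := Surf.continuous_proj κ
  π_hol w := Surf.analyticAt_proj κ w
  L a w := Surf.row D κ a w
  L_hol _ _ hw x i := Surf.analyticAt_row hw i x
  L_inj _ _ hw := Surf.row_injective hw
  L_compat _ _ _ hw x := Surf.row_compat hw.2 hw.1 x

variable {D : ModelData}

lemma change_zero_self (κ : Bool) (z u : ℂ) (x : V) : D.change 0 κ κ z u x = x := by
  obtain ⟨h1, h2, h3⟩ := ModelData.coef_self (D := D) (a := κ) z u
  have h4 : D.coefV 0 κ κ z u = 0 := funext h3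
  simp [ModelData.change, h1, h2, h4]

lemma translate_one (κ : Bool) (z u : ℂ) :
    Surf.proj D κ (z + 1, u) = Surf.proj D κ (z, u) ∧
      ∀ (x : V) (a : (Surf.bundle D).ι), Surf.proj D κ (z, u) ∈ (Surf.bundle D).core.baseSet a →
        Surf.row D κ a (z + 1, u) x = Surf.row D κ a (z, u) x := by
  have hok : Surf.stepOK (((0 : ℤ) : ℂ) * D.α) κ κ u := by cases κ <;> simp [Surf.stepOK]
  have e : (z + ((1 : ℤ) : ℂ) + ((0 : ℤ) : ℂ) * D.τ,
      Surf.step (((0 : ℤ) : ℂ) * D.α) κ κ u) = (z + 1, u) := by cases κ <;> simp [Surf.step]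
  refine ⟨?_, fun x a ha => ?_⟩
  · have := Surf.proj_translate (D := D) (m := 1) (z := z) hok
    rwa [e] at this
  · have := Surf.row_translate (D := D) (m := 1) (z := z) hok ha x
    rwa [e, change_zero_self] at this

/-- The bridge from metrics downstairs to families upstairs (`Assembly.MetricBridge`). -/
theorem metricBridge : ∀ (τ : ℂ) (hτ : 0 < τ.im) (q : ℕ) (hq : 0 < q),
    ∀ h : HermMetric (Surf.bundle (modelData τ hτ q hq)),
      h.GriffithsPositive → Nonempty (PosFamily τ q) := by
  intro τ hτ q hq h hpos
  set D := modelData τ hτ q hq with hD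
  refine ⟨posFamilyOf hpos (modelTriv D false) (modelTriv D true) ?_ ?_ ?_ ?_⟩
  · intro z t ht
    have hok : Surf.stepOK (((0 : ℤ) : ℂ) * D.α) false true t := by simpa [Surf.stepOK] using ht
    have e : (z + ((0 : ℤ) : ℂ) + ((0 : ℤ) : ℂ) * D.τ,
        Surf.step (((0 : ℤ) : ℂ) * D.α) false true t) = (z, t⁻¹) := by simp [Surf.step]
    refine ⟨?_, fun x a ha => ?_⟩
    · have := Surf.proj_translate (D := D) (m := 0) (z := z) hok
      rwa [e] at this
    · have := Surf.row_translate (D := D) (m := 0) (z := z) hok ha x
      rw [e, change_glue z t x ht] at this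
      exact this
  · exact fun z u => translate_one false z u
  · exact fun z u => translate_one true z u
  · intro z t
    have e : (z + ((0 : ℤ) : ℂ) + ((1 : ℤ) : ℂ) * D.τ,
        Surf.step (((1 : ℤ) : ℂ) * D.α) false false t) = (z + q * τ, t + q * kap) := by
      simp [Surf.step, hD]
    refine ⟨?_, fun x a ha => ?_⟩
    · have := Surf.proj_translate (D := D) (κ := false) (κ' := false) (k := 1) (m := 0)
        (z := z) (u := t) trivial
      rwa [e] at this
    · have := Surf.row_translate (D := D) (κ := false) (κ' := false) (k := 1) (m := 0)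
        (z := z) (u := t) trivial ha x
      rw [e, change_tau] at this
      exact this

end Vale.Agent.P296.NoMetric
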