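import Vale.Agent.P296.Analysis.DualPsh
import Vale.Agent.P296.Analysis.HermitianForm
import Vale.Agent.P296.Periodic

/-!
# P296: lifts of the dual norm of a Griffiths positive metric

A function on `F × W` which near every point is the squared dual norm of a holomorphic, fibrewise
linear row is twice differentiable, Hermitian quadratic and positive on the fibres, and sub-mean on
all circles of every line along holomorphic sections. The last point is global: it only needs the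
Laplacian to be nonnegative at each point.
-/

noncomputable section

namespace Vale.Agent.P296

open scoped Manifold ContDiff Topology
open Matrix Filter
open scoped ComplexOrder

variable {n r : ℕ} {X : Type} [TopologicalSpace X] [ChartedSpace (Cn n) X]
  {E : HolBundle n r X} {F W : Type*} [NormedAddCommGroup F] [NormedSpace ℂ F]
  [NormedAddCommGroup W] [NormedSpace ℂ W]

/-- `N` is, near every point, the squared dual norm of a holomorphic row, linear and injective on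
the fibres. -/
def IsLiftedDualSq (h : HermMetric E) (φ : F → X) (N : F → W → ℝ) : Prop :=
  ∀ w, ∃ a : E.ι, φ w ∈ E.core.baseSet a ∧ ∃ L : F → W →ₗ[ℂ] (Fin r → ℂ),
    Function.Injective (L w) ∧
    (∀ i x, AnalyticAt ℂ (fun q : F × W => L q.1 q.2 i) (w, x)) ∧
    ∀ᶠ u in 𝓝 w, ∀ x, N u x = ((L u x) ⬝ᵥ ((h.h a (φ u))⁻¹ *ᵥ star (L u x))).re

/-- The Gram matrix along a map which is analytic in charts is twice differentiable. -/
lemma HermMetric.contDiffAt_comp (h : HermMetric E) (a : E.ι) {φ : F → X} {w : F}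
    (hc : ContinuousAt φ w) (hm : φ w ∈ E.core.baseSet a)
    (hφ : AnalyticAt ℂ (fun z => chartAt (Cn n) (φ w) (φ z)) w) (i j : Fin r) :
    ContDiffAt ℝ 2 (fun u => h.h a (φ u) i j) w := by
  set ch := chartAt (Cn n) (φ w)
  have h0 := (h.contDiffAt_chart a hm i j).comp w ((hφ.contDiffAt (n := 2)).restrict_scalars ℝ)
  have h1 : ContDiffAt ℝ 2 (fun x => h.h a (ch.symm (ch (φ x))) i j) w := h0
  refine h1.congr_of_eventuallyEq ?_
  filter_upwards [hc (ch.open_source.mem_nhds (mem_chart_source _ (φ w)))] with x hx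
  rw [ch.left_inv hx]

/-- The dual form of a positive Gram matrix is Hermitian quadratic and positive. -/
lemma dualForm_props {m : Type*} [Fintype m] [DecidableEq m] {M : Matrix m m ℂ} (hM : M.PosDef)
    {U : Type*} [AddCommGroup U] [Module ℂ U] (L : U →ₗ[ℂ] (m → ℂ)) :
    Analysis.IsHermSq (fun x => (L x ⬝ᵥ (M⁻¹ *ᵥ star (L x))).re) ∧
      ∀ x, L x ≠ 0 → 0 < (L x ⬝ᵥ (M⁻¹ *ᵥ star (L x))).re := by
  refine ⟨(Analysis.isHermSq_of_form (B := fun u v => L v ⬝ᵥ (M⁻¹ *ᵥ star (L u)))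
    (fun u v w => by simp [map_add, add_dotProduct])
    (fun c u v => by simp [smul_dotProduct]) fun u v => ?_).1, fun x hx => ?_⟩
  · have h := bil_conj hM.inv.isHermitian (star (L v)) (star (L u))
    simpa [bil] using h.symm
  · have h := hM.inv.dotProduct_mulVec_pos (star_ne_zero.2 hx)
    simpa using (Complex.pos_iff.1 h).1

namespace IsLiftedDualSq

variable [CompleteSpace F] [CompleteSpace W] {h : HermMetric E} {φ : F → X} {N : F → W → ℝ}

omit [CompleteSpace F] [CompleteSpace W] in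
theorem isHermSq (hN : IsLiftedDualSq h φ N) (w : F) : Analysis.IsHermSq (N w) := by
  obtain ⟨a, hm, L, -, -, heq⟩ := hN w
  rw [show N w = _ from funext heq.self_of_nhds]
  exact (dualForm_props (h.pos a _ hm) (L w)).1

omit [CompleteSpace F] [CompleteSpace W] in
theorem pos (hN : IsLiftedDualSq h φ N) (w : F) {x : W} (hx : x ≠ 0) : 0 < N w x := by
  obtain ⟨a, hm, L, hinj, -, heq⟩ := hN w
  rw [heq.self_of_nhds x]
  exact (dualForm_props (h.pos a _ hm) (L w)).2 x fun h0 => hx (hinj (by rw [h0, map_zero]))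

omit [CompleteSpace F] [CompleteSpace W] in
/-- The lift is jointly twice differentiable. -/
theorem contDiff (hN : IsLiftedDualSq h φ N) (hc : Continuous φ)
    (hφ : ∀ w, AnalyticAt ℂ (fun z => chartAt (Cn n) (φ w) (φ z)) w) :
    ContDiff ℝ 2 fun q : F × W => N q.1 q.2 := by
  refine contDiff_iff_contDiffAt.2 fun ⟨w, x⟩ => ?_
  obtain ⟨a, hm, L, -, hL, heq⟩ := hN w
  have hH : ∀ i j, ContDiffAt ℝ 2 (fun q : F × W => h.h a (φ q.1) i j) (w, x) := fun i j =>
    (h.contDiffAt_comp a hc.continuousAt hm (hφ w) i j).comp (w, x) contDiffAt_fst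
  have hτ : ∀ i, ContDiffAt ℝ 2 (fun q : F × W => L q.1 q.2 i) (w, x) := fun i =>
    ((hL i x).contDiffAt (n := 2)).restrict_scalars ℝ
  obtain ⟨U₁, hU₁, hH'⟩ : ∃ U ∈ 𝓝 (w, x),
      ∀ i j, ContDiffOn ℝ 2 (fun q : F × W => h.h a (φ q.1) i j) U := by
    choose U hU hUd using fun i j => (hH i j).contDiffOn le_rfl (by simp)
    exact ⟨⋂ i, ⋂ j, U i j, Filter.iInter_mem.2 fun i => Filter.iInter_mem.2 fun j => hU i j,
      fun i j => (hUd i j).mono ((Set.iInter_subset _ i).trans (Set.iInter_subset _ j))⟩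
  obtain ⟨U₂, hU₂, hτ'⟩ : ∃ U ∈ 𝓝 (w, x),
      ∀ i, ContDiffOn ℝ 2 (fun q : F × W => L q.1 q.2 i) U := by
    choose U hU hUd using fun i => (hτ i).contDiffOn le_rfl (by simp)
    exact ⟨⋂ i, U i, Filter.iInter_mem.2 hU, fun i => (hUd i).mono (Set.iInter_subset _ i)⟩
  have hbase : ∀ᶠ q : F × W in 𝓝 (w, x), φ q.1 ∈ E.core.baseSet a :=
    (hc.continuousAt.comp continuousAt_fst) ((E.core.isOpen_baseSet a).mem_nhds hm)
  obtain ⟨U, hUsub, hUo, hUmem⟩ := _root_.mem_nhds_iff.1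
    (Filter.inter_mem (Filter.inter_mem hU₁ hU₂) hbase)
  have hd := contDiffOn_dualSq (H := fun q : F × W => h.h a (φ q.1))
    (τ := fun q : F × W => L q.1 q.2) (fun i j => (hH' i j).mono fun q hq => (hUsub hq).1.1)
    (fun q hq => h.pos a _ (hUsub hq).2) (fun i => (hτ' i).mono fun q hq => (hUsub hq).1.2)
  refine (hd.contDiffAt (hUo.mem_nhds hUmem)).congr_of_eventuallyEq ?_
  filter_upwards [continuousAt_fst.eventually heq] with q hq
  exact hq q.2

/-- Along holomorphic sections the lift is sub-mean on all circles of every line. -/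
theorem subMean (hN : IsLiftedDualSq h φ N) (hpos : h.GriffithsPositive) (hc : Continuous φ)
    (hφ : ∀ w, AnalyticAt ℂ (fun z => chartAt (Cn n) (φ w) (φ z)) w) {σ : F → W}
    (hσ : Differentiable ℂ σ) (p d : F) :
    SubMean fun ζ => N (p + ζ • d) (σ (p + ζ • d)) := by
  have hl : Differentiable ℂ fun ζ : ℂ => p + ζ • d := by fun_prop
  have hla : ∀ ζ : ℂ, AnalyticAt ℂ (fun ζ : ℂ => p + ζ • d) ζ := fun ζ =>
    analyticAt_const.add (analyticAt_id.smul analyticAt_const)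
  have hσa : ∀ ζ : ℂ, AnalyticAt ℂ (fun ζ : ℂ => σ (p + ζ • d)) ζ := fun ζ =>
    (hσ.comp hl).analyticAt ζ
  set f : ℂ → ℝ := fun ζ => N (p + ζ • d) (σ (p + ζ • d)) with hf
  have hf2 : ContDiff ℝ 2 f := by
    have h1 : ContDiff ℝ 2 fun ζ : ℂ => (p + ζ • d, σ (p + ζ • d)) :=
      contDiff_iff_contDiffAt.2 fun ζ =>
        ((((hla ζ).prod (hσa ζ))).contDiffAt (n := 2)).restrict_scalars ℝ
    exact (hN.contDiff hc hφ).comp h1
  intro c R hR
  refine le_circleAverage_of_d2 isOpen_univ hf2.contDiffOn hR.le (Set.subset_univ _) fun ζ₀ _ => ?_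
  obtain ⟨a, hm, L, -, hL, heq⟩ := hN (p + ζ₀ • d)
  set ψ : ℂ → X := fun ζ => φ (p + ζ • d) with hψ
  have hψc : Continuous ψ := hc.comp hl.continuous
  let τ : ℂ → Fin r → ℂ := fun ζ => L (p + ζ • d) (σ (p + ζ • d))
  have hτ : ∀ i, AnalyticAt ℂ (fun ζ => τ ζ i) ζ₀ := fun i =>
    AnalyticAt.comp (g := fun q : F × W => L q.1 q.2 i) (f := fun ζ : ℂ => (p + ζ • d, σ (p + ζ • d)))
      (hL i (σ (p + ζ₀ • d))) ((hla ζ₀).prod (hσa ζ₀))
  have hψa : AnalyticAt ℂ (fun z => chartAt (Cn n) (ψ ζ₀) (ψ z)) ζ₀ :=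
    AnalyticAt.comp (g := fun z => chartAt (Cn n) (φ (p + ζ₀ • d)) (φ z)) (f := fun ζ : ℂ => p + ζ • d)
      (hφ (p + ζ₀ • d)) (hla ζ₀)
  let H : ℂ → Matrix (Fin r) (Fin r) ℂ := fun ζ => h.h a (ψ ζ)
  obtain ⟨U₁, hU₁, hH⟩ : ∃ U ∈ 𝓝 ζ₀, ∀ i j, ContDiffOn ℝ 2 (fun ζ => H ζ i j) U := by
    choose U hU hUd using fun i j => (h.contDiffAt_comp a hψc.continuousAt hm hψa i j).contDiffOn
      le_rfl (by simp)
    exact ⟨⋂ i, ⋂ j, U i j, Filter.iInter_mem.2 fun i => Filter.iInter_mem.2 fun j => hU i j,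
      fun i j => (hUd i j).mono ((Set.iInter_subset _ i).trans (Set.iInter_subset _ j))⟩
  have hb : ∀ᶠ ζ in 𝓝 ζ₀, ψ ζ ∈ E.core.baseSet a :=
    hψc.continuousAt ((E.core.isOpen_baseSet a).mem_nhds hm)
  have h2 : ∀ᶠ ζ in 𝓝 ζ₀, ψ ζ ∈ E.core.baseSet a ∧ ∀ i, AnalyticAt ℂ (fun z => τ z i) ζ :=
    hb.and (eventually_all.2 fun i => (hτ i).eventually_analyticAt)
  obtain ⟨U, hUsub, hUo, hUmem⟩ := _root_.mem_nhds_iff.1 (Filter.inter_mem hU₁ h2)
  have hcurv : ∀ u, 0 ≤ curvForm H ζ₀ 1 u := fun u => by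
    rw [curvForm_eq_chern (fun i j => ((hH i j).mono fun ζ hζ => (hUsub hζ).1).contDiffAt
      (hUo.mem_nhds hUmem))]
    rcases eq_or_ne u 0 with rfl | hu
    · simp
    · have := (hpos.pullback a hψc.continuousAt hm hψa (G := fun _ => (1 : Matrix (Fin r) (Fin r) ℂ))
        (fun i j => analyticAt_const) (by simp) 1 hu).1
      simpa [H] using this
  have key := d2_dualSq_nonneg hUo (fun i j => (hH i j).mono fun ζ hζ => (hUsub hζ).1)
    (fun ζ hζ => h.pos a _ (hUsub hζ).2.1)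
    (fun i ζ hζ => ((((hUsub hζ).2.2 i).contDiffAt (n := 2)).restrict_scalars ℝ).contDiffWithinAt)
    (fun i ζ hζ => ((hUsub hζ).2.2 i).differentiableAt.differentiableWithinAt) hUmem (1 : ℂ) hcurv
  have he : f =ᶠ[𝓝 ζ₀] dualSq H τ := by
    filter_upwards [hl.continuous.continuousAt.eventually heq] with ζ hζ
    exact hζ _
  have hd2 : ∀ v : ℂ, d2 f ζ₀ v = d2 (dualSq H τ) ζ₀ v := fun v => by
    rw [d2, d2, he.fderiv.fderiv_eq]
  rw [hd2, hd2]
  simpa using key

end IsLiftedDualSq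

end Vale.Agent.P296
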