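import Vale.Agent.P296.NoMetric.Rigidity
import Vale.Agent.P296.Analysis.RelaxedLimit

/-!
# P296: normalised averaged families (interface)

`PosFamily`s for infinitely many `q` give a `NormSeq` (`NoMetric/Main.lean`); a `NormSeq` is
impossible (`NoMetric/LimitStep.lean`).
-/

noncomputable section

namespace Vale.Agent.P296.NoMetric

open Metric Filter Topology Set Real
open Vale.Agent.P296.Model Vale.Agent.P296.Analysis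

/-- The enlarged cell. -/
def bigCell (τ : ℂ) : Set ℂ := Icc (-1 : ℝ) 2 ×ℂ Icc (-τ.im) (2 * τ.im)

/-- Averaged, normalised squared dual norms in the charts `t` and `s = t⁻¹`. -/
structure NormSeq (τ : ℂ) where
  G : ℕ → (ℂ × ℂ) × V → ℝ
  Ginf : ℕ → (ℂ × ℂ) × V → ℝ
  eps : ℕ → ℝ
  eps_lim : Tendsto eps atTop (𝓝 0)
  cont : ∀ n, Continuous (G n)
  contInf : ∀ n, Continuous (Ginf n)
  nonneg : ∀ n P, 0 ≤ G n P
  nonnegInf : ∀ n P, 0 ≤ Ginf n P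
  herm : ∀ n p, IsHermSq fun x => G n (p, x)
  hermInf : ∀ n p, IsHermSq fun x => Ginf n (p, x)
  per₁ : ∀ n (p : ℂ × ℂ) x, G n (p + (1, 0), x) = G n (p, x)
  per₂ : ∀ n (p : ℂ × ℂ) (x : V), G n (p + (τ, kap), (x.1, (m τ p.1)⁻¹ * x.2)) = G n (p, x)
  glue : ∀ n z t x, t ≠ 0 → Ginf n ((z, t⁻¹), atInfty τ z t x) = G n ((z, t), x)
  sub : ∀ n (γ : ℂ → (ℂ × ℂ) × V) (c : ℂ) (R : ℝ), 0 < R → DiffContOnCl ℂ γ (ball c R) →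
    G n (γ c) * Real.exp (eps n * (γ c).1.1.im ^ 2) ≤
      circleAverage (fun ζ => G n (γ ζ) * Real.exp (eps n * (γ ζ).1.1.im ^ 2)) c R
  subInf : ∀ n z x, SubMean fun s => Ginf n ((z, s), x)
  le_one : ∀ n, ∀ z ∈ bigCell τ, ∀ t : ℂ, ‖t‖ ≤ 4 → ∀ x : V, ‖x‖ ≤ 1 → G n ((z, t), x) ≤ 1
  le_oneInf : ∀ n, ∀ z ∈ bigCell τ, ∀ s : ℂ, ‖s‖ ≤ 2 → ∀ x : V, ‖x‖ ≤ 1 → Ginf n ((z, s), x) ≤ 1
  attained : ∀ n, ∃ z ∈ bigCell τ, ∃ (u : ℂ) (x : V), ‖x‖ ≤ 1 ∧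
    ((‖u‖ ≤ 4 ∧ G n ((z, u), x) = 1) ∨ (‖u‖ ≤ 2 ∧ Ginf n ((z, u), x) = 1))

/-!
Target (in `NoMetric/LimitStep.lean`):
`theorem NormSeq.false {τ : ℂ} (hτ : 0 < τ.im) (S : NormSeq τ) : False`
-/

end Vale.Agent.P296.NoMetric
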