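import Vale.Agent.P296.Analysis.Parallelogram
import Vale.Agent.P296.Model.Lemmas
import Vale.Agent.P296.NoMetric.NormSeq

/-!
# P296: no normalised averaged family exists

The upper relaxed limit along a good subsequence is a limit metric, hence zero; so the functions
tend to zero uniformly on compact sets, against the supremum one (near `s = 0` by the sub-mean
inequality in `s`).
-/

noncomputable section

namespace Vale.Agent.P296.NoMetric

open Metric Filter Topology Set MeasureTheory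
open Vale.Agent.P296.Model Vale.Agent.P296.Analysis

/-- The domain of a fibrewise quadratic function. -/
abbrev Pt := (ℂ × ℂ) × V

variable {τ : ℂ}

/-- Translation by `(τ, kap)` with its action on the fibres. -/
def shiftHomeo (τ : ℂ) : Pt ≃ₜ Pt where
  toFun q := (q.1 + (τ, kap), (q.2.1, (m τ q.1.1)⁻¹ * q.2.2))
  invFun q := (q.1 - (τ, kap), (q.2.1, m τ (q.1.1 - τ) * q.2.2))
  left_inv q := by
    refine Prod.ext (add_sub_cancel_right _ _) (Prod.ext rfl ?_)
    simp [mul_inv_cancel_left₀ (m_ne_zero τ _)]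
  right_inv q := by
    refine Prod.ext (sub_add_cancel _ _) (Prod.ext rfl ?_)
    simp [inv_mul_cancel_left₀ (m_ne_zero τ _)]
  continuous_toFun := by
    have := ((differentiable_m τ).continuous.inv₀ (m_ne_zero τ)).comp
      (continuous_fst.fst : Continuous fun q : Pt => q.1.1)
    exact (continuous_fst.add continuous_const).prodMk
      (continuous_snd.fst.prodMk (this.mul continuous_snd.snd))
  continuous_invFun := by
    have := (differentiable_m τ).continuous.comp
      ((continuous_fst.fst.sub continuous_const) : Continuous fun q : Pt => q.1.1 - τ)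
    exact (continuous_fst.sub continuous_const).prodMk
      (continuous_snd.fst.prodMk (this.mul continuous_snd.snd))

/-- Translation by `(1, 0)`. -/
def oneHomeo : Pt ≃ₜ Pt :=
  (Homeomorph.addRight ((1, 0) : ℂ × ℂ)).prodCongr (Homeomorph.refl V)

/-- What holds over the cell and is invariant under both steps holds everywhere. -/
lemma of_cell (hτ : 0 < τ.im) {P : Pt → Prop} (h1 : ∀ q, P (oneHomeo q) ↔ P q)
    (h2 : ∀ q, P (shiftHomeo τ q) ↔ P q)
    (hcell : ∀ q : Pt, q.1.1.re ∈ Icc (0 : ℝ) 1 → q.1.1.im ∈ Icc (0 : ℝ) τ.im → P q) (q : Pt) :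
    P q := by
  have hre : ∀ n : ℤ, ∀ q : Pt, q.1.1.re ∈ Icc (n : ℝ) (n + 1) →
      q.1.1.im ∈ Icc (0 : ℝ) τ.im → P q := by
    intro n
    induction n using Int.induction_on with
    | zero => intro q hr hi; exact hcell q (by simpa using hr) hi
    | succ n ih =>
      intro q hr hi
      rw [show q = oneHomeo (oneHomeo.symm q) from (oneHomeo.apply_symm_apply q).symm, h1]
      push_cast at hr
      refine ih _ ?_ ?_
      · show (q.1.1 + -1).re ∈ _
        simp only [Complex.add_re, Complex.neg_re, Complex.one_re, Set.mem_Icc, Int.cast_natCast] at hr ⊢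
        constructor <;> linarith [hr.1, hr.2]
      · show (q.1.1 + -1).im ∈ _
        simpa using hi
    | pred n ih =>
      intro q hr hi
      rw [← h1]
      push_cast at hr
      refine ih _ ?_ ?_
      · show (q.1.1 + 1).re ∈ _
        push_cast
        simp only [Complex.add_re, Complex.one_re, Set.mem_Icc] at hr ⊢
        constructor <;> linarith [hr.1, hr.2]
      · show (q.1.1 + 1).im ∈ _
        simpa using hi
  have him : ∀ j : ℤ, ∀ q : Pt, q.1.1.im ∈ Icc ((j : ℝ) * τ.im) ((j + 1) * τ.im) → P q := by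
    intro j
    induction j using Int.induction_on with
    | zero =>
      intro q hi
      exact hre ⌊q.1.1.re⌋ q ⟨Int.floor_le _, (Int.lt_floor_add_one _).le⟩ (by simpa using hi)
    | succ n ih =>
      intro q hi
      rw [show q = shiftHomeo τ ((shiftHomeo τ).symm q) from ((shiftHomeo τ).apply_symm_apply q).symm, h2]
      refine ih _ ?_
      push_cast at hi
      show (q.1.1 - τ).im ∈ _
      simp only [Complex.sub_im, Set.mem_Icc, Int.cast_natCast] at hi ⊢
      constructor <;> linarith [hi.1, hi.2]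
    | pred n ih =>
      intro q hi
      rw [← h2]
      refine ih _ ?_
      push_cast at hi ⊢
      show (q.1.1 + τ).im ∈ _
      simp only [Complex.add_im, Set.mem_Icc] at hi ⊢
      constructor <;> linarith [hi.1, hi.2]
  exact him ⌊q.1.1.im / τ.im⌋ q ⟨(le_div_iff₀ hτ).1 (Int.floor_le _),
    ((div_lt_iff₀ hτ).1 (Int.lt_floor_add_one _)).le⟩

lemma bigCell_mem_nhds (hτ : 0 < τ.im) {z : ℂ} (hr : z.re ∈ Icc (0 : ℝ) 1)
    (hi : z.im ∈ Icc (0 : ℝ) τ.im) : bigCell τ ∈ 𝓝 z := by
  refine mem_of_superset ((isOpen_Ioo.reProdIm isOpen_Ioo).mem_nhds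
    (show z ∈ Ioo (-1 : ℝ) 2 ×ℂ Ioo (-τ.im) (2 * τ.im) from
      ⟨⟨by linarith [hr.1], by linarith [hr.2]⟩, by linarith [hi.1], by linarith [hi.2]⟩))
    fun w hw => ⟨Ioo_subset_Icc_self hw.1, Ioo_subset_Icc_self hw.2⟩

lemma le_norm_sq {q : V → ℝ} (h : IsHermSq q) (h1 : ∀ x, ‖x‖ ≤ 1 → q x ≤ 1) (x : V) :
    q x ≤ ‖x‖ ^ 2 := by
  rcases eq_or_ne x 0 with rfl | hx
  · simp [h.apply_zero]
  have hn : ‖x‖ ≠ 0 := norm_ne_zero_iff.2 hx
  have e : x = (‖x‖ : ℂ) • ((‖x‖ : ℂ)⁻¹ • x) := (smul_inv_smul₀ (by exact_mod_cast hn) x).symm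
  conv_lhs => rw [e, h.apply_smul, Complex.norm_real, norm_norm]
  refine mul_le_of_le_one_right (sq_nonneg _) (h1 _ ?_)
  rw [norm_smul, norm_inv, Complex.norm_real, norm_norm, inv_mul_cancel₀ hn]

namespace NormSeq

variable (S : NormSeq τ)

lemma le_finite (n : ℕ) {z t : ℂ} (hz : z ∈ bigCell τ) (ht : ‖t‖ ≤ 4) (x : V) :
    S.G n ((z, t), x) ≤ ‖x‖ ^ 2 :=
  le_norm_sq (S.herm n (z, t)) (S.le_one n z hz t ht) x

lemma le_infty (n : ℕ) {z t : ℂ} (hz : z ∈ bigCell τ) (ht : 1 / 2 ≤ ‖t‖) (x : V) :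
    S.G n ((z, t), x) ≤ ‖atInfty τ z t x‖ ^ 2 := by
  have ht0 : t ≠ 0 := norm_pos_iff.1 (lt_of_lt_of_le one_half_pos ht)
  rw [← S.glue n z t x ht0]
  refine le_norm_sq (S.hermInf n (z, t⁻¹)) (S.le_oneInf n z hz _ ?_) _
  rw [norm_inv, inv_le_comm₀ (norm_pos_iff.2 ht0) two_pos]
  linarith

lemma locally_bounded (hτ : 0 < τ.im) (q : Pt) :
    ∃ U ∈ 𝓝 q, ∃ C, ∀ n, ∀ p ∈ U, S.G n p ≤ C := by
  have hinv : ∀ T : Pt ≃ₜ Pt, (∀ n p, S.G n (T p) = S.G n p) → ∀ q,
      (∃ U ∈ 𝓝 (T q), ∃ C, ∀ n, ∀ p ∈ U, S.G n p ≤ C) ↔ ∃ U ∈ 𝓝 q, ∃ C, ∀ n, ∀ p ∈ U, S.G n p ≤ C := by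
    refine fun T hT q => ⟨fun ⟨U, hU, C, hC⟩ => ⟨T ⁻¹' U, T.continuous.continuousAt.preimage_mem_nhds hU,
      C, fun n p hp => hT n p ▸ hC n _ hp⟩, fun ⟨U, hU, C, hC⟩ => ⟨T.symm ⁻¹' U,
      T.symm.continuous.continuousAt.preimage_mem_nhds (by rwa [T.symm_apply_apply]),
      C, fun n p hp => ?_⟩⟩
    rw [← T.apply_symm_apply p, hT]
    exact hC n _ hp
  refine of_cell (P := fun q => ∃ U ∈ 𝓝 q, ∃ C, ∀ n, ∀ p ∈ U, S.G n p ≤ C) hτ (hinv oneHomeo fun n p => S.per₁ n p.1 p.2)
    (hinv (shiftHomeo τ) fun n p => S.per₂ n p.1 p.2) (fun ⟨⟨z, t⟩, x⟩ hr hi => ?_) q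
  have hz : ∀ᶠ p : Pt in 𝓝 ((z, t), x), p.1.1 ∈ bigCell τ :=
    (continuous_fst.fst.tendsto _).eventually (bigCell_mem_nhds hτ hr hi)
  rcases lt_or_ge ‖t‖ 2 with ht | ht
  · have h1 : ∀ᶠ p : Pt in 𝓝 ((z, t), x), ‖p.1.2‖ < 4 ∧ ‖p.2‖ < ‖x‖ + 1 :=
      ((continuous_fst.snd.norm.tendsto _).eventually (gt_mem_nhds (show ‖t‖ < 4 by linarith))).and
        ((continuous_snd.norm.tendsto _).eventually (gt_mem_nhds (lt_add_one ‖x‖)))
    refine ⟨_, hz.and h1, (‖x‖ + 1) ^ 2, fun n p hp => ?_⟩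
    exact (S.le_finite n hp.1 hp.2.1.le p.2).trans
      (pow_le_pow_left₀ (norm_nonneg _) hp.2.2.le 2)
  · have hG := (differentiable_Gp hτ).continuous
    have ht0 : t ≠ 0 := norm_pos_iff.1 (lt_of_lt_of_le two_pos ht)
    have hc : ContinuousAt (fun p : Pt => ‖atInfty τ p.1.1 p.1.2 p.2‖ ^ 2) ((z, t), x) := by
      simp only [atInfty]
      fun_prop (disch := simp [ht0])
    refine ⟨_, hz.and (((continuous_fst.snd.norm.tendsto _).eventually
      (lt_mem_nhds (show (1 : ℝ) < ‖t‖ by linarith))).and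
        (hc.eventually (gt_mem_nhds (lt_add_one _)))), ‖atInfty τ z t x‖ ^ 2 + 1, fun n p hp => ?_⟩
    exact (S.le_infty n hp.1 (by linarith [hp.2.1]) p.2).trans hp.2.2.le

lemma almostPsh (hτ : 0 < τ.im) : AlmostPsh S.G := by
  have hb : ∀ K, IsCompact K → ∃ C, ∀ n, ∀ p ∈ K, S.G n p ≤ C := by
    intro K hK
    choose U hU C hC using fun q => S.locally_bounded hτ q
    obtain ⟨s, hs⟩ := hK.elim_nhds_subcover' (fun q _ => U q) fun q _ => hU q
    refine ⟨∑ q ∈ s, |C q|, fun n p hp => ?_⟩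
    obtain ⟨q, hq, hpq⟩ := mem_iUnion₂.1 (hs hp)
    exact ((hC q n p hpq).trans (le_abs_self _)).trans
      (Finset.single_le_sum (f := fun q : K => |C q|) (fun i _ => abs_nonneg _) hq)
  refine AlmostPsh.of_weight (a := fun n p => Real.exp (S.eps n * p.1.1.im ^ 2)) S.cont S.nonneg hb
    (fun n => by fun_prop) (fun K hK δ hδ => ?_) S.sub
  obtain ⟨M, hM⟩ := hK.exists_bound_of_continuousOn
    (f := fun p : Pt => p.1.1.im ^ 2) (by fun_prop)
  have h0 : Tendsto (fun n => |S.eps n| * |M|) atTop (𝓝 0) := by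
    simpa using S.eps_lim.abs.mul_const |M|
  filter_upwards [h0.eventually (ge_mem_nhds (lt_min one_pos (half_pos hδ)))] with n hn p hp
  have h1 : |S.eps n * p.1.1.im ^ 2| ≤ |S.eps n| * |M| := by
    rw [abs_mul]
    exact mul_le_mul_of_nonneg_left (((le_abs_self _).trans_eq (Real.norm_eq_abs _).symm |>.trans
      (hM p hp)).trans (le_abs_self M) |> fun h => by rwa [abs_of_nonneg (sq_nonneg _)]) (abs_nonneg _)
  calc |Real.exp (S.eps n * p.1.1.im ^ 2) - 1| ≤ 2 * |S.eps n * p.1.1.im ^ 2| :=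
        Real.abs_exp_sub_one_le (h1.trans (hn.trans (min_le_left _ _)))
    _ ≤ δ := by linarith [hn.trans (min_le_right _ _)]

/-- Change to the chart `t`. -/
def back (τ : ℂ) (q : Pt) : Pt := ((q.1.1, q.1.2⁻¹), fromInfty τ q.1.1 q.1.2 q.2)

lemma glue_back (n : ℕ) {z s : ℂ} (hs : s ≠ 0) (x : V) :
    S.Ginf n ((z, s), x) = S.G n (back τ ((z, s), x)) := by
  rw [back, ← S.glue n z s⁻¹ _ (inv_ne_zero hs), inv_inv]
  congr
  simp only [atInfty, fromInfty, Gp, Gi]
  refine Prod.ext (funext fun i => ?_) ?_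
  · simp
    field_simp
    ring
  · simp
    field_simp

/-- No normalised averaged family exists. -/
theorem false {τ : ℂ} (hτ : 0 < τ.im) (S : NormSeq τ) : False := by
  set μ : Measure Pt := Measure.addHaar
  obtain ⟨φ, hφ, hgood⟩ := (S.almostPsh hτ).exists_good μ
  set F : ℕ → Pt → ℝ := fun n => S.G (φ n) with hF
  have hA : AlmostPsh F := (S.almostPsh hτ).comp hφ
  have hQ : FibreQuadratic (upperLim F) := hA.fibreQuadratic_upperLim μ hgood fun n =>
    { nonneg := fun p x => S.nonneg _ _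
      smul := fun p c x => (S.herm _ p).apply_smul c x
      parallelogram := fun p v w => by
        show (fun x => S.G (φ n) (p, x)) (v + w) + (fun x => S.G (φ n) (p, x)) (v - w) =
          2 * (fun x => S.G (φ n) (p, x)) v + 2 * (fun x => S.G (φ n) (p, x)) w
        have h := S.herm (φ n) p
        rw [sub_eq_add_neg v w, ← neg_one_smul ℂ w]
        have h1 := h.expand_smul (-1) v w
        have h2 := h.expand v w
        simp at h1 h2 ⊢
        linarith }
  have hperT : ∀ T : Pt ≃ₜ Pt, (∀ n p, S.G n (T p) = S.G n p) → ∀ p,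
      upperLim F (T p) = upperLim F p := fun T hT p =>
    upperLim_congr (T.map_nhds_eq p) (Eventually.of_forall fun q => hT _ _)
  have hone := hperT oneHomeo fun n p => S.per₁ n p.1 p.2
  have hshift := hperT (shiftHomeo τ) fun n p => S.per₂ n p.1 p.2
  have hG := (differentiable_Gp hτ).continuous
  have hlim : LimForm τ fun p x => upperLim F (p, x) :=
    { herm := fun p => isHermSq_of_parallelogram (hQ.nonneg p) (hQ.smul p) (hQ.parallelogram p)
      nonneg := hQ.nonneg
      usc := fun x => hA.upperSemicontinuous.comp (g := fun p : ℂ × ℂ => (p, x)) (by fun_prop)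
      sub := fun a v σ hσ c r hr => by
        have hd : Differentiable ℂ fun ζ : ℂ => ((a + ζ • v, σ ζ) : Pt) :=
          ((differentiable_id.smul_const v).const_add a).prodMk hσ
        exact hA.submean_upperLim (γ := fun ζ => (a + ζ • v, σ ζ)) hr hd.diffContOnCl
      per₁ := fun p x => hone (p, x)
      per₂ := fun p η => by
        simpa [shiftHomeo] using hshift (p, (η, 0))
      bound := ⟨1, fun z hr hi t ht x => by
        have ht0 : t ≠ 0 := norm_pos_iff.1 (zero_lt_one.trans_le ht)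
        rw [one_mul]
        refine le_of_forall_pos_le_add fun δ hδ => hA.upperLim_le ?_
        have hc : ContinuousAt (fun p : Pt => ‖atInfty τ p.1.1 p.1.2 p.2‖ ^ 2) ((z, t), x) := by
          simp only [atInfty]
          fun_prop (disch := simp [ht0])
        filter_upwards [tendsto_snd.eventually (((continuous_fst.fst.tendsto _).eventually
          (bigCell_mem_nhds hτ hr hi)).and (((continuous_fst.snd.norm.tendsto _).eventually
            (lt_mem_nhds (show (1 / 2 : ℝ) < ‖t‖ by linarith))).and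
              (hc.eventually (gt_mem_nhds (lt_add_of_pos_right _ hδ)))))] with q hq
        exact (S.le_infty _ hq.1 hq.2.1.le q.2.2).trans hq.2.2.le⟩ }
  have hzero : ∀ q, upperLim F q = 0 :=
    of_cell hτ (fun q => by rw [hone]) (fun q => by rw [hshift]) fun q hr hi =>
      hlim.vanish hτ q.1.1 hr hi q.1.2 q.2
  have hsmall : ∀ K, IsCompact K → ∀ᶠ n in atTop, ∀ p ∈ K, F n p < 1 / 2 := fun K hK => by
    obtain ⟨p₁, hp₁, p₂, hp₂, h12⟩ := eventually_prod_iff.1
      (hK.mem_prod_nhdsSet_of_forall (l := atTop) (s := {q : ℕ × Pt | F q.1 q.2 < 1 / 2}) fun p _ =>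
        hA.eventually_lt (b := 1 / 2) (by rw [hzero]; norm_num))
    exact hp₁.mono fun n hn p hp => h12 hn (subset_of_mem_nhdsSet hp₂ hp)
  choose z hz u x hx hval using fun n => S.attained (φ n)
  have hcell : IsCompact (bigCell τ) := isCompact_Icc.reProdIm isCompact_Icc
  set K₁ : Set Pt := (bigCell τ ×ˢ closedBall (0 : ℂ) 4) ×ˢ closedBall (0 : V) 1
  set A : Set Pt := (bigCell τ ×ˢ (closedBall (0 : ℂ) 5 \ ball 0 1)) ×ˢ closedBall (0 : V) 1
  have hA0 : ∀ q ∈ A, q.1.2 ≠ 0 := fun q hq e => hq.1.2.2 (by simp [e])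
  have hback : ContinuousOn (back τ) A := fun q hq => by
    have hG' := (differentiable_Gi hτ).continuous
    have := hA0 q hq
    refine ContinuousAt.continuousWithinAt ?_
    have hGc : Continuous fun i : Pt => Gi τ i.1.1 i.1.2 :=
      hG'.comp (continuous_fst.fst.prodMk continuous_fst.snd)
    have h2 : q.1.2 ^ 2 ≠ 0 := pow_ne_zero 2 this
    have c0 : ContinuousAt (fun i : Pt => i.2.2 / i.1.2) q :=
      ContinuousAt.div₀ (by fun_prop) (by fun_prop) this
    have ct : ContinuousAt (fun i : Pt => i.1.2) q := continuous_fst.snd.continuousAt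
    exact ((continuous_fst.fst.continuousAt).prodMk (ct.inv₀ this)).prodMk
      ((((ct.pow 2).smul continuous_snd.fst.continuousAt).add (c0.smul hGc.continuousAt)).prodMk
        (continuous_snd.snd.neg.continuousAt.div₀ (ct.pow 2) h2))
  have hAc : IsCompact A :=
    (hcell.prod ((isCompact_closedBall 0 5).diff isOpen_ball)).prod (isCompact_closedBall 0 1)
  have hK₁ : IsCompact K₁ :=
    (hcell.prod (isCompact_closedBall 0 4)).prod (isCompact_closedBall 0 1)
  obtain ⟨n, h1, h2⟩ := ((hsmall K₁ hK₁).and (hsmall _ (hAc.image_of_continuousOn hback))).exists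
  rcases hval n with ⟨hu, hv⟩ | ⟨hu, hv⟩
  · have := h1 ((z n, u n), x n) ⟨⟨hz n, mem_closedBall_zero_iff.2 hu⟩,
      mem_closedBall_zero_iff.2 (hx n)⟩
    simp only [hF] at this
    linarith
  · have hcirc : ∀ y ∈ sphere (u n) |(3 : ℝ)|, S.Ginf (φ n) ((z n, y), x n) ≤ 1 / 2 := by
      intro y hy
      rw [mem_sphere_iff_norm, abs_of_pos (by norm_num : (0 : ℝ) < 3)] at hy
      have hy5 : ‖y‖ ≤ 5 := by linarith [norm_le_norm_add_norm_sub' y (u n)]
      have hy1 : 1 ≤ ‖y‖ := by linarith [norm_sub_le y (u n)]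
      have hyA : ((z n, y), x n) ∈ A := ⟨⟨hz n, mem_closedBall_zero_iff.2 hy5,
        by simp [hy1]⟩, mem_closedBall_zero_iff.2 (hx n)⟩
      rw [S.glue_back _ (norm_pos_iff.1 (zero_lt_one.trans_le hy1))]
      exact (h2 _ (mem_image_of_mem _ hyA)).le
    have hi : CircleIntegrable (fun s => S.Ginf (φ n) ((z n, s), x n)) (u n) 3 :=
      (((S.contInf (φ n)).comp (by fun_prop)).continuousOn).circleIntegrable (by norm_num)
    have := (S.subInf (φ n) (z n) (x n) (u n) 3 (by norm_num)).trans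
      (Real.circleAverage_mono_on_of_le_circle hi hcirc)
    linarith

end NormSeq

end Vale.Agent.P296.NoMetric
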