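import Vale.Agent.P296.NoMetric.Normalise
import Vale.Agent.P296.NoMetric.LimitStep

/-!
# P296: no positive family upstairs for large `q`
-/

namespace Vale.Agent.P296.NoMetric

/-- For large `q` there is no positive family upstairs. -/
theorem eventually_not_posFamily {τ : ℂ} (hτ : 0 < τ.im) :
    ∃ q₀ : ℕ, ∀ q, q₀ ≤ q → IsEmpty (PosFamily τ q) := by
  by_contra h
  push Not at h
  obtain ⟨S⟩ := exists_normSeq hτ fun q₀ => by
    obtain ⟨q, hq, hne⟩ := h q₀
    exact ⟨q, hq, hne⟩
  exact S.false hτ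

end Vale.Agent.P296.NoMetric
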