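import Vale.Agent.P296.NoMetric.NormSeq
import Vale.Agent.P296.NoMetric.Average

/-!
# P296: positive families for arbitrarily large `q` give a normalised sequence
-/

noncomputable section

namespace Vale.Agent.P296.NoMetric

open Metric Filter Topology Set Real
open Vale.Agent.P296.Model Vale.Agent.P296.Analysis

variable {τ : ℂ}

/-- The parameters over which we normalise. -/
def normBox (τ : ℂ) (r : ℝ) : Set ((ℂ × ℂ) × V) :=
  (bigCell τ ×ˢ closedBall (0 : ℂ) r) ×ˢ closedBall (0 : V) 1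

lemma isCompact_normBox (τ : ℂ) (r : ℝ) : IsCompact (normBox τ r) :=
  ((isCompact_Icc.reProdIm isCompact_Icc).prod (isCompact_closedBall _ _)).prod
    (isCompact_closedBall _ _)

lemma mem_normBox {r : ℝ} {z u : ℂ} {x : V} :
    ((z, u), x) ∈ normBox τ r ↔ z ∈ bigCell τ ∧ ‖u‖ ≤ r ∧ ‖x‖ ≤ 1 := by
  simp [normBox, and_assoc]

/-- The supremum over both boxes is attained and positive. -/
lemma exists_max (hτ : 0 < τ.im) {q : ℕ} (hq : 0 < q) (F : PosFamily τ q) :
    ∃ M : ℝ, 0 < M ∧ (∀ P ∈ normBox τ 4, avgH F P ≤ M) ∧ (∀ P ∈ normBox τ 2, avgHI F P ≤ M) ∧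
      ((∃ P ∈ normBox τ 4, avgH F P = M) ∨ ∃ P ∈ normBox τ 2, avgHI F P = M) := by
  have h0 : (0 : ℂ) ∈ bigCell τ := by
    constructor <;> constructor <;> simp <;> linarith
  obtain ⟨P, hP, hmax⟩ := (isCompact_normBox τ 4).exists_isMaxOn
    ⟨((0, 0), 0), mem_normBox.2 ⟨h0, by simp, by simp⟩⟩ (continuous_avgH F).continuousOn
  obtain ⟨Q, hQ, hmax'⟩ := (isCompact_normBox τ 2).exists_isMaxOn
    ⟨((0, 0), 0), mem_normBox.2 ⟨h0, by simp, by simp⟩⟩ (continuous_avgHI F hτ).continuousOn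
  have hpos : 0 < avgH F P := by
    have hx : ((0, 1) : V) ≠ 0 := fun h => one_ne_zero (congrArg Prod.snd h)
    refine (avgH_pos F hq (0, 0) hx).trans_le (hmax (mem_normBox.2 ⟨h0, by simp, ?_⟩))
    simp [Prod.norm_def]
  refine ⟨max (avgH F P) (avgHI F Q), lt_max_of_lt_left hpos,
    fun R hR => (hmax hR).trans (le_max_left _ _), fun R hR => (hmax' hR).trans (le_max_right _ _), ?_⟩
  rcases le_total (avgHI F Q) (avgH F P) with h | h
  · exact Or.inl ⟨P, hP, (max_eq_left h).symm⟩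
  · exact Or.inr ⟨Q, hQ, (max_eq_right h).symm⟩

/-- Positive families for arbitrarily large `q` give a normalised sequence. -/
theorem exists_normSeq (hτ : 0 < τ.im) (h : ∀ q₀ : ℕ, ∃ q, q₀ ≤ q ∧ Nonempty (PosFamily τ q)) :
    Nonempty (NormSeq τ) := by
  choose q hle hne using fun n : ℕ => h (n + 1)
  have F : ∀ n, PosFamily τ (q n) := fun n => Classical.choice (hne n)
  have hq : ∀ n, 0 < q n := fun n => Nat.lt_of_lt_of_le n.succ_pos (hle n)
  choose M hM hle4 hle2 hatt using fun n => exists_max hτ (hq n) (F n)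
  have heps : Tendsto (fun n => epsQ τ (q n)) atTop (𝓝 0) := by
    have h1 : Tendsto (fun n => (q n : ℝ) * τ.im) atTop atTop :=
      (tendsto_natCast_atTop_atTop.comp
        (tendsto_atTop_mono (fun n => Nat.le_of_succ_le (hle n)) tendsto_id)).atTop_mul_const hτ
    exact tendsto_const_nhds.div_atTop h1
  refine ⟨{
    G := fun n P => (M n)⁻¹ * avgH (F n) P
    Ginf := fun n P => (M n)⁻¹ * avgHI (F n) P
    eps := fun n => epsQ τ (q n)
    eps_lim := heps
    cont := fun n => continuous_const.mul (continuous_avgH _)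
    contInf := fun n => continuous_const.mul (continuous_avgHI _ hτ)
    nonneg := fun n P => mul_nonneg (inv_nonneg.2 (hM n).le) (avgH_nonneg _ P)
    nonnegInf := fun n P => mul_nonneg (inv_nonneg.2 (hM n).le) (avgHI_nonneg _ P)
    herm := fun n p => (herm_avgH (F n) p).const_mul _
    hermInf := fun n p => (herm_avgHI (F n) p).const_mul _
    per₁ := fun n p x => by simp only [avgH_add_one]
    per₂ := fun n p x => by simp only [avgH_add_tau (F n) hτ (hq n)]
    glue := fun n z t x ht => by simp only [glue_avg (F n) z ht]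
    sub := fun n γ c R hR hγ => ?_
    subInf := fun n z x => ?_
    le_one := fun n z hz t ht x hx => ?_
    le_oneInf := fun n z hz s hs x hx => ?_
    attained := fun n => ?_ }⟩
  · simp only [mul_assoc, avgH_mul_exp]
    simp only [← smul_eq_mul]
    rw [circleAverage_fun_smul]
    exact smul_le_smul_of_nonneg_left ((psh2_avgG (F n)).le_circleAverage hR hγ)
      (inv_nonneg.2 (hM n).le)
  · intro c r hr
    simp only [← smul_eq_mul]
    rw [circleAverage_fun_smul]
    exact smul_le_smul_of_nonneg_left (subMean_avgHI (F n) hτ z x c r hr) (inv_nonneg.2 (hM n).le)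
  · exact inv_mul_le_one_of_le₀ (hle4 n _ (mem_normBox.2 ⟨hz, ht, hx⟩)) (hM n).le
  · exact inv_mul_le_one_of_le₀ (hle2 n _ (mem_normBox.2 ⟨hz, hs, hx⟩)) (hM n).le
  · rcases hatt n with ⟨⟨⟨z, u⟩, x⟩, hP, e⟩ | ⟨⟨⟨z, u⟩, x⟩, hP, e⟩
    · obtain ⟨hz, hu, hx⟩ := mem_normBox.1 hP
      exact ⟨z, hz, u, x, hx, Or.inl ⟨hu, by rw [e, inv_mul_cancel₀ (hM n).ne']⟩⟩
    · obtain ⟨hz, hu, hx⟩ := mem_normBox.1 hP
      exact ⟨z, hz, u, x, hx, Or.inr ⟨hu, by rw [e, inv_mul_cancel₀ (hM n).ne']⟩⟩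

end Vale.Agent.P296.NoMetric
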