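import Vale.Agent.P296.Analysis.CrossTerm
import Vale.Agent.P296.Periodic
import Vale.Agent.P296.Model.Data

/-!
# P296: a limit metric on the model vanishes

The `η` block is constant by periodicity and polynomial growth, the cross term is entire in `w` and
tends to zero at infinity, where it meets the gluing class: the products of theta functions being
independent, the block vanishes, and so does everything.
-/

noncomputable section

namespace Vale.Agent.P296.NoMetric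

open Metric Filter Topology Set Complex
open Vale.Agent.P296.Model Vale.Agent.P296.Analysis

/-- A limit of normalised averaged dual metrics, upstairs in the chart `w`. -/
structure LimForm (τ : ℂ) (G : ℂ × ℂ → V → ℝ) : Prop where
  herm : ∀ p, IsHermSq (G p)
  nonneg : ∀ p x, 0 ≤ G p x
  usc : ∀ x, UpperSemicontinuous fun p => G p x
  sub : ∀ (a v : ℂ × ℂ) (σ : ℂ → V), Differentiable ℂ σ → SubMean fun ζ => G (a + ζ • v) (σ ζ)
  per₁ : ∀ (p : ℂ × ℂ) x, G (p + (1, 0)) x = G p x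
  per₂ : ∀ (p : ℂ × ℂ) η, G (p + (τ, kap)) (η, 0) = G p (η, 0)
  bound : ∃ K, ∀ z : ℂ, z.re ∈ Icc (0 : ℝ) 1 → z.im ∈ Icc (0 : ℝ) τ.im → ∀ w : ℂ, 1 ≤ ‖w‖ →
    ∀ x, G (z, w) x ≤ K * ‖atInfty τ z w x‖ ^ 2

variable {τ : ℂ} {G : ℂ × ℂ → V → ℝ}

/-- A nonnegative sub-mean function tending to zero at infinity is zero. -/
lemma eq_zero_of_tendsto {f : ℂ → ℝ} (hu : UpperSemicontinuous f) (h0 : ∀ z, 0 ≤ f z)
    (hs : SubMean f) (hl : Tendsto f (cocompact ℂ) (𝓝 0)) (z : ℂ) : f z = 0 := by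
  refine le_antisymm (le_of_forall_pos_le_add fun ε hε => ?_) (h0 z)
  obtain ⟨r, hr⟩ := (closedBall_compl_subset_of_mem_cocompact (hl.eventually (ge_mem_nhds hε))
    (0 : ℂ))
  set R := |r| + ‖z‖ + 1
  have hR : 0 < R := by positivity
  refine (hs z R hR).trans ((Real.circleAverage_mono_on_of_le_circle
    (circleIntegrable_usc hu h0 z R) fun y hy => hr ?_).trans (by simp))
  rw [mem_sphere_iff_norm, abs_of_pos hR] at hy
  rw [mem_compl_iff, mem_closedBall_zero_iff, not_le]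
  have := norm_sub_le y z
  linarith [le_abs_self r]

namespace LimForm

variable (h : LimForm τ G)
include h

lemma const_block (hτ : 0 < τ.im) (η : Fin 6 → ℂ) (p q : ℂ × ℂ) : G p (η, 0) = G q (η, 0) := by
  obtain ⟨K₀, hK₀⟩ := h.bound
  set f : ℂ × ℂ → ℝ := fun p => G p (η, 0)
  have hcomp : IsCompact ((Icc (0 : ℝ) 1 ×ℂ Icc (0 : ℝ) τ.im) ×ˢ closedBall (0 : ℂ) 1) :=
    (isCompact_Icc.reProdIm isCompact_Icc).prod (isCompact_closedBall 0 1)
  obtain ⟨C, hC⟩ := (h.usc (η, 0)).upperSemicontinuousOn _ |>.bddAbove_of_isCompact hcomp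
  have hin : ∀ z : ℂ, z.re ∈ Icc (0 : ℝ) 1 → z.im ∈ Icc (0 : ℝ) τ.im → ∀ w : ℂ,
      f (z, w) ≤ (|K₀| * ‖η‖ ^ 2 + |C|) * (1 + ‖w‖) ^ 4 := by
    intro z hz hz' w
    have h4 : (1 : ℝ) ≤ (1 + ‖w‖) ^ 4 := one_le_pow₀ (by linarith [norm_nonneg w])
    rcases le_or_gt ‖w‖ 1 with hw | hw
    · have h1 : f (z, w) ≤ C := hC ⟨(z, w), ⟨⟨hz, hz'⟩, by simpa using hw⟩, rfl⟩
      nlinarith [le_abs_self C, abs_nonneg C,
        mul_nonneg (abs_nonneg K₀) (sq_nonneg ‖η‖)]
    · refine (hK₀ z hz hz' w hw.le (η, 0)).trans ?_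
      have e : atInfty τ z w (η, 0) = ((w ^ 2) • η, 0) := by simp [atInfty]
      rw [e, Prod.norm_mk, norm_zero, max_eq_left (norm_nonneg _), norm_smul, norm_pow]
      calc K₀ * (‖w‖ ^ 2 * ‖η‖) ^ 2 ≤ |K₀| * (‖w‖ ^ 2 * ‖η‖) ^ 2 :=
            mul_le_mul_of_nonneg_right (le_abs_self _) (sq_nonneg _)
        _ = |K₀| * ‖η‖ ^ 2 * ‖w‖ ^ 4 := by ring
        _ ≤ (|K₀| * ‖η‖ ^ 2 + |C|) * (1 + ‖w‖) ^ 4 := mul_le_mul (by linarith [abs_nonneg C])
            (pow_le_pow_left₀ (norm_nonneg w) (by linarith) 4) (by positivity) (by positivity)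
  refine biperiodic_const' (τ := τ) (κ := kap) (by simp [kap, Real.pi_ne_zero]) (h.usc (η, 0)) (fun p => h.nonneg _ _)
    (fun p => h.per₁ p _) (fun p => h.per₂ p η) (fun a v t => ?_)
    (A := (|K₀| * ‖η‖ ^ 2 + |C|) * ((1 + ‖kap‖) * (2 + τ.im⁻¹)) ^ 4) (k := 4) (fun p => ?_) p q
  · have hd : Differentiable ℂ fun ζ : ℂ => exp (-(I * ((t / 2 : ℝ) : ℂ)) * ζ) • ((η, 0) : V) := by
      fun_prop
    convert h.sub a v _ hd using 2 with ζ
    rw [(h.herm _).apply_smul, mul_comm]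
    congr 1
    rw [norm_exp, ← Real.exp_nat_mul]
    congr 1
    simp
    ring
  · obtain ⟨z, w⟩ := p
    set m := ⌊z.im / τ.im⌋ with hm
    set z₁ : ℂ := z - (m : ℂ) * τ
    set n := ⌊z₁.re⌋
    have hp₂ : Function.Periodic f (τ, kap) := fun p => h.per₂ p η
    have hp₁ : Function.Periodic f (1, 0) := fun p => h.per₁ p _
    have e : f (z, w) = f (z₁ - n, w - (m : ℂ) * kap) := by
      rw [← (hp₂.zsmul m).sub_eq (z, w),
        ← (hp₁.zsmul n).sub_eq ((z, w) - m • (τ, kap))]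
      simp [z₁, zsmul_eq_mul]
    show f (z, w) ≤ _
    rw [e]
    have h1 : (m : ℝ) * τ.im ≤ z.im := (le_div_iff₀ hτ).1 (Int.floor_le _)
    have h2 : z.im < (m + 1) * τ.im := (div_lt_iff₀ hτ).1 (Int.lt_floor_add_one _)
    refine (hin _ ?_ ?_ _).trans ?_
    · simp only [Complex.sub_re, Complex.intCast_re]
      exact ⟨by linarith [Int.floor_le z₁.re], by linarith [Int.lt_floor_add_one z₁.re]⟩
    · have e2 : (z₁ - (n : ℂ)).im = z.im - m * τ.im := by simp [z₁]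
      rw [e2]
      exact ⟨by linarith, by linarith⟩
    · rw [mul_assoc (|K₀| * ‖η‖ ^ 2 + |C|), ← mul_pow]
      refine mul_le_mul_of_nonneg_left (pow_le_pow_left₀ (by positivity) ?_ 4) (by positivity)
      have h3 := norm_sub_le w ((m : ℂ) * kap)
      rw [norm_mul, Complex.norm_intCast] at h3
      have hi : 0 ≤ τ.im⁻¹ := by positivity
      have h4 : |(m : ℝ)| ≤ |z.im| * τ.im⁻¹ + 1 := by
        have h5 : z.im / τ.im ≤ |z.im| * τ.im⁻¹ := mul_le_mul_of_nonneg_right (le_abs_self _) hi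
        have h6 : -(|z.im| * τ.im⁻¹) ≤ z.im / τ.im := by
          rw [← neg_mul]; exact mul_le_mul_of_nonneg_right (neg_abs_le _) hi
        exact abs_le.2 ⟨by linarith [Int.lt_floor_add_one (z.im / τ.im)],
          by linarith [Int.floor_le (z.im / τ.im)]⟩
      simp only
      have h7 := mul_le_mul_of_nonneg_right h4 (norm_nonneg kap)
      nlinarith [norm_nonneg w, abs_nonneg z.im, norm_nonneg kap, mul_nonneg hi (norm_nonneg kap),
        mul_nonneg (abs_nonneg z.im) (norm_nonneg kap), mul_nonneg hi (norm_nonneg w),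
        mul_nonneg (norm_nonneg kap) (norm_nonneg w),
        mul_nonneg (mul_nonneg hi (norm_nonneg kap)) (norm_nonneg w),
        mul_nonneg hi (abs_nonneg z.im)]

lemma const_cross (hτ : 0 < τ.im) (η η' : Fin 6 → ℂ) (p q : ℂ × ℂ) :
    pol (G p) (η, 0) (η', 0) = pol (G q) (η, 0) (η', 0) := by
  simp only [pol, Prod.mk_add_mk, Prod.mk_sub_mk, Prod.smul_mk, smul_zero, add_zero, sub_zero]
  simp only [h.const_block hτ _ p q]

lemma diff_cross (hτ : 0 < τ.im) (z : ℂ) (η : Fin 6 → ℂ) :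
    Differentiable ℂ fun w => pol (G (z, w)) (η, 0) (0, 1) := by
  rw [← differentiableOn_univ]
  have hu : ∀ x : V, UpperSemicontinuous fun w : ℂ => G (z, w) x := fun x =>
    (h.usc x).comp (g := fun w : ℂ => (z, w)) (by fun_prop)
  refine crossTerm_holomorphic (q := fun w => G (z, w)) (fun w => h.herm _) isOpen_univ
    (w := fun _ => (η, 0)) (σ := fun _ => (0, 1)) (fun w _ => h.const_block hτ η (z, w) (z, 0)) ?_ ?_
    (hu _).measurable ?_
  · have hm := fun x => (hu x).measurable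
    simp only [pol]
    exact ((Complex.measurable_ofReal.comp ((hm _).sub (hm _))).sub
      ((Complex.measurable_ofReal.comp ((hm _).sub (hm _))).const_mul I)).div_const 4
  · intro c r _
    obtain ⟨C, hC⟩ := (hu (0, 1)).upperSemicontinuousOn _ |>.bddAbove_of_isCompact
      (isCompact_closedBall c r)
    refine ⟨max |C| (Real.sqrt (G (z, 0) (η, 0) * |C|)), fun y hy => ?_⟩
    have h1 : G (z, y) (0, 1) ≤ |C| := (hC ⟨y, hy, rfl⟩).trans (le_abs_self C)
    refine ⟨(Real.le_sqrt_of_sq_le ((h.herm _).cauchy_schwarz (h.nonneg _) _ _ |>.trans ?_)).trans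
      (le_max_right _ _), ?_⟩
    · rw [h.const_block hτ η (z, y) (z, 0)]
      exact mul_le_mul_of_nonneg_left h1 (h.nonneg _ _)
    · rw [abs_of_nonneg (h.nonneg _ _)]
      exact h1.trans (le_max_left _ _)
  · intro c r hr _ a b
    have h1 := h.sub (z, 0) (0, 1) (fun y => ((η, 0) : V) + (a + b * (y - c)) • (0, 1))
      (by fun_prop) c r hr
    simpa using h1

/-- Near infinity the vector `x_w` which the chart `v` sends to `(0, w⁻²)` is small. -/
lemma bound_vec : ∃ K, 0 ≤ K ∧ ∀ z : ℂ, z.re ∈ Icc (0 : ℝ) 1 → z.im ∈ Icc (0 : ℝ) τ.im →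
    ∀ w : ℂ, 1 ≤ ‖w‖ → G (z, w) ((-(w ^ 3)⁻¹ • Gp τ z w, 0) + (0, 1)) ≤ K / ‖w‖ ^ 4 := by
  obtain ⟨K, hK⟩ := h.bound
  refine ⟨|K|, abs_nonneg _, fun z hz hz' w hw => ?_⟩
  have hw0 : w ≠ 0 := norm_pos_iff.1 (zero_lt_one.trans_le hw)
  refine (hK z hz hz' w hw _).trans ?_
  have e : atInfty τ z w ((-(w ^ 3)⁻¹ • Gp τ z w, 0) + (0, 1)) = (0, -1 / w ^ 2) := by
    simp only [atInfty, Prod.mk_add_mk, add_zero, zero_add]
    rw [smul_smul, ← add_smul, show w ^ 2 * -(w ^ 3)⁻¹ + 1 / w = 0 by field_simp; ring, zero_smul]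
  rw [e, Prod.norm_mk, norm_zero, max_eq_right (norm_nonneg _), norm_div, norm_neg, norm_one, norm_pow,
    div_pow, one_pow, ← pow_mul, mul_one_div]
  exact div_le_div_of_nonneg_right (le_abs_self K) (by positivity)

lemma cross_infty (hτ : 0 < τ.im) {z : ℂ} (hz : z.re ∈ Icc (0 : ℝ) 1) (hz' : z.im ∈ Icc (0 : ℝ) τ.im)
    (η : Fin 6 → ℂ) : pol (G (0, 0)) (η, 0) (thd τ 0 z, 0) = 0 := by
  obtain ⟨K, hK0, hK⟩ := h.bound_vec
  set f := fun w => pol (G (z, w)) (η, 0) (0, 1)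
  set P := fun y => pol (G (0, 0)) (η, 0) (y, 0)
  set S := Real.sqrt (G (0, 0) (η, 0) * K)
  have hlin : ∀ w : ℂ, P (-(w ^ 3)⁻¹ • Gp τ z w)
      = -(w ^ 3)⁻¹ * (P (thd τ 2 z) + w * P (thd τ 1 z) + w ^ 2 * P (thd τ 0 z)) := fun w => by
    simp only [P]
    rw [show ((-(w ^ 3)⁻¹ • Gp τ z w, 0) : V) = -(w ^ 3)⁻¹ • ((Gp τ z w, 0) : V) by simp,
      (h.herm _).smul]
    rw [show (Gp τ z w, (0 : ℂ)) = ((thd τ 2 z, 0) : V) + w • (thd τ 1 z, 0) + (w ^ 2) • (thd τ 0 z, 0) by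
      simp only [Gp, Prod.smul_mk, smul_zero, Prod.mk_add_mk, add_zero]; congr 1; abel, (h.herm _).add, (h.herm _).add, (h.herm _).smul, (h.herm _).smul]
  have hE : ∀ᶠ w in cocompact ℂ, ‖f w + P (-(w ^ 3)⁻¹ • Gp τ z w)‖ ≤ S * (‖w‖⁻¹) ^ 2 := by
    filter_upwards [tendsto_norm_cocompact_atTop.eventually (eventually_ge_atTop 1)] with w hw
    have h1 := (h.herm (z, w)).cauchy_schwarz (h.nonneg _) (η, 0)
      ((-(w ^ 3)⁻¹ • Gp τ z w, 0) + (0, 1))
    rw [(h.herm _).add, h.const_cross hτ η _ (z, w) (0, 0), h.const_block hτ η (z, w) (0, 0),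
      add_comm] at h1
    refine (Real.le_sqrt_of_sq_le (h1.trans (mul_le_mul_of_nonneg_left (hK z hz hz' w hw)
      (h.nonneg _ _)))).trans_eq ?_
    rw [← mul_div_assoc, Real.sqrt_div' _ (by positivity),
      show ‖w‖ ^ 4 = (‖w‖ ^ 2) ^ 2 by ring, Real.sqrt_sq (by positivity), div_eq_mul_inv, inv_pow]
  have hinv : Tendsto (fun w : ℂ => w⁻¹) (cocompact ℂ) (𝓝 0) := by
    rw [tendsto_zero_iff_norm_tendsto_zero]
    simpa [Function.comp_def] using tendsto_inv_atTop_zero.comp tendsto_norm_cocompact_atTop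
  have hn : Tendsto (fun w : ℂ => ‖w‖⁻¹) (cocompact ℂ) (𝓝 0) := by
    simpa using hinv.norm
  have hne : ∀ᶠ w in cocompact ℂ, w ≠ (0 : ℂ) := by
    filter_upwards [tendsto_norm_cocompact_atTop.eventually (eventually_ge_atTop 1)] with w hw
    exact norm_pos_iff.1 (zero_lt_one.trans_le hw)
  have hPlim : Tendsto (fun w => P (-(w ^ 3)⁻¹ • Gp τ z w)) (cocompact ℂ) (𝓝 0) := by
    have h1 : Tendsto (fun w : ℂ => -((w⁻¹) ^ 3 * P (thd τ 2 z) + (w⁻¹) ^ 2 * P (thd τ 1 z) + w⁻¹ * P (thd τ 0 z)))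
        (cocompact ℂ) (𝓝 0) := by
      simpa using ((((hinv.pow 3).mul_const (P (thd τ 2 z))).add
        ((hinv.pow 2).mul_const (P (thd τ 1 z)))).add (hinv.mul_const (P (thd τ 0 z)))).neg
    refine h1.congr' (hne.mono fun w hw => ?_)
    simp only [hlin]
    field_simp
  have hEl : Tendsto (fun w => f w + P (-(w ^ 3)⁻¹ • Gp τ z w)) (cocompact ℂ) (𝓝 0) :=
    squeeze_zero_norm' hE (by simpa using (hn.pow 2).const_mul S)
  have hf : Tendsto f (cocompact ℂ) (𝓝 0) := by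
    simpa using hEl.sub hPlim
  have hf0 : ∀ w, f w = 0 := fun w => (h.diff_cross hτ z η).apply_eq_of_tendsto_cocompact w hf
  have hwl : Tendsto (fun w => w * P (-(w ^ 3)⁻¹ • Gp τ z w)) (cocompact ℂ) (𝓝 0) := by
    refine squeeze_zero_norm' (a := fun w => S * ‖w‖⁻¹) ?_ (by simpa using hn.const_mul S)
    filter_upwards [hE, hne] with w hw hw0
    rw [hf0, zero_add] at hw
    rw [norm_mul]
    refine (mul_le_mul_of_nonneg_left hw (norm_nonneg w)).trans_eq ?_
    field_simp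
  have hwl' : Tendsto (fun w : ℂ => w * P (-(w ^ 3)⁻¹ • Gp τ z w)) (cocompact ℂ) (𝓝 (-P (thd τ 0 z))) := by
    have h1 : Tendsto (fun w : ℂ => -((w⁻¹) ^ 2 * P (thd τ 2 z) + w⁻¹ * P (thd τ 1 z) + P (thd τ 0 z)))
        (cocompact ℂ) (𝓝 (-P (thd τ 0 z))) := by
      simpa using ((((hinv.pow 2).mul_const (P (thd τ 2 z))).add
        (hinv.mul_const (P (thd τ 1 z)))).add_const (P (thd τ 0 z))).neg
    refine h1.congr' (hne.mono fun w hw => ?_)
    simp only [hlin]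
    field_simp
  exact neg_eq_zero.1 (tendsto_nhds_unique hwl' hwl)

/-- A limit metric vanishes, the products of theta functions being independent on the cell. -/
theorem eq_zero (hτ : 0 < τ.im) (hth : ∀ c : Fin 6 → ℂ, (∀ z : ℂ, z.re ∈ Icc (0 : ℝ) 1 → z.im ∈ Icc (0 : ℝ) τ.im →
      ∑ k, c k * thd τ 0 z k = 0) → c = 0) :
    ∀ z : ℂ, z.re ∈ Icc (0 : ℝ) 1 → z.im ∈ Icc (0 : ℝ) τ.im → ∀ w x, G (z, w) x = 0 := by
  have hblock : ∀ η p, G p (η, 0) = 0 := fun η p => by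
    have key : ∀ y : Fin 6 → ℂ, pol (G (0, 0)) (η, 0) (y, 0) =
        ∑ k, y k * pol (G (0, 0)) (η, 0) (Pi.single k 1, 0) := fun y => by
      let L : (Fin 6 → ℂ) →ₗ[ℂ] ℂ :=
        { toFun := fun y => pol (G (0, 0)) (η, 0) (y, 0)
          map_add' := fun a b => by simp [← (h.herm _).add]
          map_smul' := fun c a => by simp [← (h.herm _).smul] }
      have e : ∀ k : Fin 6, (fun j => if k = j then (1 : ℂ) else 0) = Pi.single k 1 := fun k => by
        ext j; simp [Pi.single_apply, eq_comm]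
      simpa [L, e] using LinearMap.pi_apply_eq_sum_univ L y
    have hc := hth (fun k => pol (G (0, 0)) (η, 0) (Pi.single k 1, 0)) fun z hz hz' => by
      refine Eq.trans ?_ (h.cross_infty hτ hz hz' η)
      rw [key]
      exact Finset.sum_congr rfl fun k _ => mul_comm _ _
    have h1 := (h.herm (0, 0)).diag (η, 0)
    rw [key] at h1
    simp only [fun k => congrFun hc k, Pi.zero_apply, mul_zero, Finset.sum_const_zero] at h1
    rw [h.const_block hτ η p (0, 0)]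
    exact_mod_cast h1.symm
  intro z hz hz' w x
  have habs : ∀ p η y, G p ((η, 0) + y) = G p y := fun p η y => by
    have h1 := (h.herm p).cauchy_schwarz (h.nonneg p) (η, 0) y
    rw [hblock, zero_mul] at h1
    have h2 : pol (G p) (η, 0) y = 0 := norm_eq_zero.1 (by nlinarith [norm_nonneg (pol (G p) (η, 0) y)])
    rw [(h.herm p).expand, hblock, h2]
    simp
  obtain ⟨K, hK0, hK⟩ := h.bound_vec
  set f := fun w => G (z, w) (0, 1)
  have hf : ∀ w, f w = 0 := by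
    refine eq_zero_of_tendsto ((h.usc (0, 1)).comp (g := fun w : ℂ => (z, w)) (by fun_prop))
      (fun w => h.nonneg _ _) (by simpa [f] using h.sub (z, 0) (0, 1) (fun _ => (0, 1)) (by fun_prop)) ?_
    refine squeeze_zero' (g := fun w => K / ‖w‖ ^ 4) (Eventually.of_forall fun w => h.nonneg _ _) ?_
      (tendsto_const_nhds.div_atTop ((tendsto_pow_atTop (by norm_num)).comp
        tendsto_norm_cocompact_atTop))
    filter_upwards [tendsto_norm_cocompact_atTop.eventually (eventually_ge_atTop 1)] with w hw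
    have h1 := hK z hz hz' w hw
    rwa [habs] at h1
  have e : x = ((x.1, 0) : V) + x.2 • (0, 1) := by simp
  rw [e, habs, (h.herm _).apply_smul, show G (z, w) (0, 1) = 0 from hf w, mul_zero]

end LimForm

/-- The `θ_i` are independent as functions on the cell. -/
theorem th_independent_cell {τ : ℂ} (hτ : 0 < τ.im) (c : Fin 6 → ℂ)
    (hc : ∀ z : ℂ, z.re ∈ Icc (0 : ℝ) 1 → z.im ∈ Icc (0 : ℝ) τ.im → ∑ k, c k * thd τ 0 z k = 0) :
    c = 0 := by
  have h6 : 0 < 6 := by norm_num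
  set f : ℂ → ℂ := fun z => ∑ k, c k * th τ k z
  have hd : Differentiable ℂ f :=
    Differentiable.fun_sum fun k _ => (Theta.differentiable_series hτ h6 _).const_mul (c k)
  set z₀ : ℂ := ⟨1 / 2, τ.im / 2⟩
  have hev : f =ᶠ[𝓝 z₀] 0 := by
    have hU : IsOpen (Ioo (0 : ℝ) 1 ×ℂ Ioo (0 : ℝ) τ.im) := isOpen_Ioo.reProdIm isOpen_Ioo
    have hz₀ : z₀ ∈ Ioo (0 : ℝ) 1 ×ℂ Ioo (0 : ℝ) τ.im := by
      refine ⟨⟨?_, ?_⟩, ?_, ?_⟩ <;> simp only [z₀] <;> linarith
    filter_upwards [hU.mem_nhds hz₀] with z hz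
    simpa [f, thd] using hc z (Ioo_subset_Icc_self hz.1) (Ioo_subset_Icc_self hz.2)
  have hzero := (Complex.analyticOnNhd_univ_iff_differentiable.2 hd).eqOn_zero_of_preconnected_of_eventuallyEq_zero
    isPreconnected_univ (mem_univ z₀) hev
  funext i
  refine Fintype.linearIndependent_iff.1 (Theta.linearIndependent_series hτ h6) c (funext fun z => ?_) i
  simpa [f, th] using hzero (mem_univ z)

/-- A limit metric vanishes on the cell. -/
theorem LimForm.vanish {τ : ℂ} {G : ℂ × ℂ → V → ℝ} (h : LimForm τ G) (hτ : 0 < τ.im) :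
    ∀ z : ℂ, z.re ∈ Icc (0 : ℝ) 1 → z.im ∈ Icc (0 : ℝ) τ.im → ∀ w x, G (z, w) x = 0 :=
  h.eq_zero hτ (th_independent_cell hτ)

end Vale.Agent.P296.NoMetric
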